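import Vale.Agent.P329.Defs
import Mathlib.Computability.DFA
import Mathlib.Computability.NFA
import Mathlib.Data.ENat.Lattice
import Mathlib.Order.Filter.AtTopBot.Basic

namespace Vale.Agent.N329

open Vale.Agent.P329

/-- The generalized star height of a language: the least star height of an expression over the
same alphabet which denotes it. -/
noncomputable def hgt {α : Type} (L : Set (List α)) : ℕ∞ :=
  ⨅ (e : GRE α) (_ : e.lang = L), (e.height : ℕ∞)

/-- The supremum of the generalized star heights of all regular languages over all finite
alphabets. -/
noncomputable def H : ℕ∞ :=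
  ⨆ (α : Type) (_ : Finite α) (L : Language α) (_ : L.IsRegular), hgt (α := α) L

/-- Generalized regular expressions with extra constants. -/
inductive XRE (α C : Type) : Type
  | zero : XRE α C
  | one : XRE α C
  | letter : α → XRE α C
  | const : C → XRE α C
  | union : XRE α C → XRE α C → XRE α C
  | concat : XRE α C → XRE α C → XRE α C
  | compl : XRE α C → XRE α C
  | star : XRE α C → XRE α C

/-- Star height; the extra constants have height zero. -/
def XRE.height {α C : Type} : XRE α C → ℕ
  | .zero => 0
  | .one => 0
  | .letter _ => 0
  | .const _ => 0
  | .union e f => max e.height f.height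
  | .concat e f => max e.height f.height
  | .compl e => e.height
  | .star e => e.height + 1

/-- The denoted language, if the constant `c` denotes `I c`. -/
def XRE.lang {α C : Type} (I : C → Set (List α)) : XRE α C → Set (List α)
  | .zero => ∅
  | .one => {[]}
  | .letter a => {[a]}
  | .const c => I c
  | .union e f => e.lang I ∪ f.lang I
  | .concat e f => {w | ∃ u ∈ e.lang I, ∃ v ∈ f.lang I, u ++ v = w}
  | .compl e => (e.lang I)ᶜ
  | .star e => {w | ∃ L : List (List α), (∀ u ∈ L, u ∈ e.lang I) ∧ L.flatten = w}

/-- The power `z ^ j` of a word. -/
def pow {α : Type} (z : List α) (j : ℕ) : List α := (List.replicate j z).flatten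

/-- Expressions for sets of infinite words: Boolean operations and the product of a generalized
regular expression with such an expression. There is no infinite power. -/
inductive ORE (α : Type) : Type
  | zero : ORE α
  | pre : GRE α → ORE α → ORE α
  | union : ORE α → ORE α → ORE α
  | compl : ORE α → ORE α

/-- Star height. -/
def ORE.height {α : Type} : ORE α → ℕ
  | .zero => 0
  | .pre e f => max e.height f.height
  | .union e f => max e.height f.height
  | .compl e => e.height

/-- The denoted set of infinite words. -/
def ORE.lang {α : Type} : ORE α → Set (ℕ → α)
  | .zero => ∅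
  | .pre e f => {x | ∃ n, (List.range n).map x ∈ e.lang ∧ (fun i => x (n + i)) ∈ f.lang}
  | .union e f => e.lang ∪ f.lang
  | .compl e => (e.lang)ᶜ

/-- The infinite words accepted by a nondeterministic automaton with the condition of Buechi: some
run from a start state visits accepting states infinitely often. -/
def buchi {α σ : Type} (A : NFA α σ) : Set (ℕ → α) :=
  {x | ∃ r : ℕ → σ, r 0 ∈ A.start ∧ (∀ i, r (i + 1) ∈ A.step (r i) (x i)) ∧
    ∃ᶠ i in Filter.atTop, r i ∈ A.accept}

end Vale.Agent.N329
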