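import Vale.Agent.N329.Rel

set_option linter.all false

/-!
Four hierarchies, and the lower bound.
-/

namespace Vale.Agent.N329

open Vale.Agent.P329 Vale.Agent.P329Z Vale.Agent.P329Z.Ht

variable {α C : Type}

theorem cls_SH (j : ℕ) : Cls (fun k (L : Set (List α)) => SH (k + j) L) where
  mono h hA := hA.mono (by omega)
  empty := SH.empty
  eps := SH.eps
  single := SH.single
  compl := SH.compl
  union := SH.union
  cat := SH.cat
  kst {k A} hA := (SH.kst hA).mono (by omega)

/-- height at most `k` over the constants `I` -/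
def XH (I : C → Set (List α)) (k : ℕ) (L : Set (List α)) : Prop :=
  ∃ e : XRE α C, e.height ≤ k ∧ e.lang I = L

theorem cls_XH (I : C → Set (List α)) : Cls (XH I) where
  mono := by
    rintro k l _ h ⟨e, he, rfl⟩
    exact ⟨e, he.trans h, rfl⟩
  empty := ⟨.zero, Nat.zero_le _, rfl⟩
  eps := ⟨.one, Nat.zero_le _, rfl⟩
  single a := ⟨.letter a, Nat.zero_le _, rfl⟩
  compl := by
    rintro k _ ⟨e, he, rfl⟩
    exact ⟨.compl e, he, rfl⟩
  union := by
    rintro k _ _ ⟨e, he, rfl⟩ ⟨f, hf, rfl⟩
    exact ⟨.union e f, max_le he hf, rfl⟩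
  cat := by
    rintro k _ _ ⟨e, he, rfl⟩ ⟨f, hf, rfl⟩
    exact ⟨.concat e f, max_le he hf, rfl⟩
  kst := by
    rintro k _ ⟨e, he, rfl⟩
    exact ⟨.star e, Nat.succ_le_succ he, rfl⟩

theorem XH.const (I : C → Set (List α)) (c : C) : XH I 0 (I c) := ⟨.const c, le_rfl, rfl⟩

/-- two stars over the powers of single words -/
theorem two_pow [Finite α] (L : Language α) (hL : L.IsRegular) :
    XH (fun y : List α => {w | ∃ j, w = pow y j}) 2 L := by
  obtain ⟨σ, _, A, rfl⟩ := hL
  obtain ⟨D, hD⟩ := rel_dfa σ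
  refine hD α _ (cls_XH _) (fun z e _ _ => ?_) A
  exact (cls_XH _).congr (XH.const _ (pw z e)) fun w => mem_kst _ _

section modq

/-- the words whose length is a multiple of `q` -/
def Mq (α : Type) (q : ℕ) : Set (List α) := {w | q ∣ w.length}

/-- height at most `k` over the constant `Mq q`, for all multiples `q` of a number -/
def MH (k : ℕ) (L : Set (List α)) : Prop :=
  ∃ d, 0 < d ∧ ∀ q, 0 < q → d ∣ q → XH (fun _ : Unit => Mq α q) k L

theorem MH.two {k l m : ℕ} {A B E : Set (List α)} (hA : MH k A) (hB : MH l B)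
    (h : ∀ I : Unit → Set (List α), XH I k A → XH I l B → XH I m E) : MH m E := by
  obtain ⟨d, hd, h1⟩ := hA
  obtain ⟨e, he, h2⟩ := hB
  exact ⟨d * e, Nat.mul_pos hd he, fun q hq h3 => h _ (h1 q hq ((Dvd.intro _ rfl).trans h3))
    (h2 q hq ((Dvd.intro_left _ rfl).trans h3))⟩

theorem cls_MH : Cls (MH (α := α)) where
  mono h hA := hA.two hA fun I h1 _ => (cls_XH I).mono h h1
  empty := ⟨1, one_pos, fun _ _ _ => (cls_XH _).empty⟩
  eps := ⟨1, one_pos, fun _ _ _ => (cls_XH _).eps⟩
  single a := ⟨1, one_pos, fun _ _ _ => (cls_XH _).single a⟩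
  compl hA := hA.two hA fun I h1 _ => (cls_XH I).compl h1
  union hA hB := hA.two hB fun I => (cls_XH I).union
  cat hA hB := hA.two hB fun I => (cls_XH I).cat
  kst hA := hA.two hA fun I h1 _ => (cls_XH I).kst h1

theorem MH_Mq [Finite α] {d : ℕ} (hd : 0 < d) : MH 0 (Mq α d) := by
  refine ⟨d, hd, fun q hq h => ?_⟩
  have c := cls_XH (fun _ : Unit => Mq α q)
  have hf : {u : List α | u.length < q ∧ d ∣ u.length}.Finite :=
    (List.finite_length_lt α q).subset fun _ h => h.1
  refine c.congr (c.cat (c.finite hf) (XH.const _ ())) fun w => ?_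
  constructor
  · intro hw
    have h1 := Nat.mod_add_div w.length q
    have h2 := Nat.mod_lt w.length hq
    have h3 : w.length % q ≤ w.length := Nat.mod_le _ _
    refine ⟨w.take (w.length % q), ⟨?_, ?_⟩, w.drop (w.length % q), ?_, List.take_append_drop _ _⟩
    · rw [List.length_take]; omega
    · rw [List.length_take, min_eq_left h3]
      exact (Nat.dvd_mod_iff h).2 hw
    · show q ∣ _
      rw [List.length_drop]
      exact ⟨w.length / q, by omega⟩
  · rintro ⟨u, hu, v, hv, rfl⟩
    show d ∣ _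
    rw [List.length_append]
    exact dvd_add hu.2 (h.trans hv)

theorem pw_length (y : List α) (j : ℕ) : (pw y j).length = y.length * j := by
  induction j with
  | zero => rfl
  | succ j ih => rw [pw_succ, List.length_append, ih]; ring

theorem pw_nil (j : ℕ) : pw ([] : List α) j = [] :=
  List.length_eq_zero_iff.1 (by rw [pw_length]; simp)

theorem MH_star [Finite α] (y : List α) : MH 0 (kst {y}) := by
  have c := cls_MH (α := α)
  by_cases hy : y = []
  · subst hy
    refine c.congr c.eps fun w => ?_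
    rw [mem_kst]
    exact ⟨fun ⟨j, h⟩ => h.trans (pw_nil j), fun h => ⟨0, h⟩⟩
  have hd : 0 < y.length := List.length_pos_iff.2 hy
  have hf : {u : List α | u.length = y.length ∧ u ≠ y}.Finite :=
    (List.finite_length_eq α y.length).subset fun _ h => h.1
  refine c.congr (c.diff (MH_Mq hd) (c.cat (MH_Mq hd) (c.cat (c.finite hf) c.univ))) fun w => ?_
  rw [mem_kst]
  constructor
  · rintro ⟨j, rfl⟩
    refine ⟨⟨j, pw_length y j⟩, ?_⟩
    induction j with
    | zero =>
      rintro ⟨v, -, _, ⟨u, hu, t, -, rfl⟩, h⟩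
      have := congrArg List.length h
      simp only [List.length_append, pw_length] at this
      have := hu.1
      omega
    | succ j ih =>
      rintro ⟨v, ⟨i, hi⟩, _, ⟨u, hu, t, -, rfl⟩, h⟩
      rw [pw_succ] at h
      cases i with
      | zero =>
        rw [List.length_eq_zero_iff.1 hi, List.nil_append] at h
        exact hu.2 (List.append_inj h hu.1).1
      | succ i =>
        have h1 : y.length ≤ v.length := by rw [hi, Nat.mul_succ]; omega
        rw [← List.take_append_drop y.length v, List.append_assoc] at h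
        have h2 := List.append_inj h (by rw [List.length_take]; omega)
        exact ih ⟨v.drop y.length, ⟨i, by rw [List.length_drop, hi, Nat.mul_succ]; omega⟩, _,
          ⟨u, hu, t, trivial, rfl⟩, h2.2⟩
  · rintro ⟨⟨j, hj⟩, h⟩
    refine ⟨j, ?_⟩
    induction j generalizing w with
    | zero => exact List.length_eq_zero_iff.1 hj
    | succ j ih =>
      have h1 : (w.take y.length).length = y.length := by
        rw [List.length_take, hj, Nat.mul_succ]; omega
      have h2 : w.take y.length = y := by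
        by_contra h3
        exact h ⟨[], dvd_zero _, _, ⟨_, ⟨h1, h3⟩, w.drop y.length, trivial, rfl⟩, by simp⟩
      rw [pw_succ, ← ih (w.drop y.length) ?_ (by rw [List.length_drop, hj, Nat.mul_succ]; omega)]
      · conv_lhs => rw [← List.take_append_drop y.length w, h2]
      · rintro ⟨v, hv, t, ht, h3⟩
        refine h ⟨w.take y.length ++ v, ?_, t, ht, by rw [List.append_assoc, h3]; simp⟩
        show y.length ∣ _
        rw [List.length_append, h1]
        exact dvd_add dvd_rfl hv

/-- two stars over one condition on the length -/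
theorem two_mod [Finite α] (L : Language α) (hL : L.IsRegular) :
    ∃ q, 0 < q ∧ XH (fun _ : Unit => {w : List α | q ∣ w.length}) 2 L := by
  obtain ⟨σ, _, A, rfl⟩ := hL
  obtain ⟨D, hD⟩ := rel_dfa σ
  obtain ⟨q, hq, h⟩ := hD α _ cls_MH (fun z e _ _ => MH_star _) A
  exact ⟨q, hq, h q hq dvd_rfl⟩

end modq

section free

theorem cls_inter {Q : Set (List α)} (hQ : SH 0 Q) (hf : ∀ u w, u <:+: w → w ∈ Q → u ∈ Q) :
    Cls (fun k (L : Set (List α)) => SH k (L ∩ Q)) where
  mono h hA := hA.mono h
  empty := SH.empty.inter hQ.of_zero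
  eps := SH.eps.inter hQ.of_zero
  single a := (SH.single a).inter hQ.of_zero
  compl hA := (hQ.of_zero.diff hA).congr fun w => by
    simp only [Set.mem_inter_iff, Set.mem_compl_iff, Set.mem_diff]; tauto
  union hA hB := (hA.union hB).congr fun w => by
    simp only [Set.mem_inter_iff, Set.mem_union]; tauto
  cat hA hB := ((hA.cat hB).inter hQ.of_zero).congr fun w => by
    constructor
    · rintro ⟨⟨u, hu, v, hv, rfl⟩, h⟩
      exact ⟨⟨u, ⟨hu, hf _ _ (List.prefix_append u v).isInfix h⟩, v,
        ⟨hv, hf _ _ (List.suffix_append u v).isInfix h⟩, rfl⟩, h⟩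
    · rintro ⟨⟨u, hu, v, hv, rfl⟩, h⟩
      exact ⟨⟨u, hu.1, v, hv.1, rfl⟩, h⟩
  kst hA := (hA.kst.inter hQ.of_zero).congr fun w => by
    constructor
    · rintro ⟨⟨l, hl, rfl⟩, h⟩
      exact ⟨⟨l, fun u hu => ⟨hl u hu, hf _ _ (List.infix_of_mem_flatten hu) h⟩, rfl⟩, h⟩
    · rintro ⟨⟨l, hl, rfl⟩, h⟩
      exact ⟨⟨l, fun u hu => (hl u hu).1, rfl⟩, h⟩

/-- height two on the words without high powers of short words -/
theorem two_free (σ : Type) [Finite σ] : ∃ D : ℕ, ∀ (α : Type) [Finite α] (A : DFA α σ) (N : ℕ),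
    SH 2 {w | w ∈ A.accepts ∧ ∀ z : List α, z ≠ [] → z.length ≤ D → ¬ pow z N <:+: w} := by
  obtain ⟨D, hD⟩ := rel_dfa σ
  refine ⟨D, fun α _ A N => ?_⟩
  let Q : Set (List α) := {w | ∀ z : List α, z ≠ [] → z.length ≤ D → ¬ pow z N <:+: w}
  have hf : {z : List α | z ≠ [] ∧ z.length ≤ D}.Finite :=
    (List.finite_length_le α D).subset fun _ h => h.2
  have hQ : SH 0 Q := (SH.biUnion_finite hf fun z _ =>
      (SH.univ.cat (SH.word (pow z N))).cat SH.univ).compl.congr fun w => by
    simp only [Set.mem_compl_iff, Set.mem_iUnion, Set.mem_setOf_eq, not_exists, Q]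
    constructor
    · rintro h z hz ⟨_, ⟨u, -, _, rfl, rfl⟩, v, -, h1⟩
      exact h z hz.1 hz.2 ⟨u, v, h1⟩
    · rintro h z h1 h2 ⟨u, v, h3⟩
      exact h z ⟨h1, h2⟩ ⟨_, ⟨u, trivial, _, rfl, rfl⟩, v, trivial, h3⟩
  refine hD α _ (cls_inter hQ fun u w h hw z h1 h2 h3 => hw z h1 h2 (h3.trans h))
    (fun z e hz he => SH.finite ?_) A
  refine (((Set.finite_lt_nat (N + 1)).image fun j => pw z (e * j))).subset ?_
  rintro w ⟨h1, h2⟩
  obtain ⟨j, rfl⟩ := (mem_kst _ _).1 h1
  rw [pw_mul] at h2 ⊢
  by_cases hz' : z = []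
  · subst hz'
    exact ⟨0, Nat.succ_pos N, by simp only [pw_nil]⟩
  · refine ⟨j, ?_, rfl⟩
    by_contra hj
    have h3 : N ≤ e * j := (Nat.le_of_succ_le (not_lt.1 hj)).trans (Nat.le_mul_of_pos_left j he)
    refine h2 z hz' hz ⟨[], pw z (e * j - N), ?_⟩
    show [] ++ pw z N ++ _ = _
    rw [List.nil_append, ← pw_add, Nat.add_sub_cancel' h3]

end free

section bounds

theorem unit_eq (w : List Unit) : w = List.replicate w.length () :=
  List.eq_replicate_of_mem fun _ _ => rfl

theorem free_unit (e : GRE Unit) (he : e.height = 0) : ∃ N, ∀ i j, N ≤ i → N ≤ j →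
    List.replicate i () ∈ e.lang → List.replicate j () ∈ e.lang := by
  induction e with
  | zero => exact ⟨0, fun _ _ _ _ h => h⟩
  | one =>
    refine ⟨1, fun i j hi _ h => ?_⟩
    have := congrArg List.length (show List.replicate i () = [] from h)
    simp at this
    omega
  | letter a =>
    refine ⟨2, fun i j hi _ h => ?_⟩
    have := congrArg List.length (show List.replicate i () = [a] from h)
    simp at this
    omega
  | union e f ih1 ih2 =>
    simp only [GRE.height] at he
    obtain ⟨N, h1⟩ := ih1 (by omega)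
    obtain ⟨M, h2⟩ := ih2 (by omega)
    exact ⟨N + M, fun i j hi hj h => h.imp (h1 i j (by omega) (by omega))
      (h2 i j (by omega) (by omega))⟩
  | concat e f ih1 ih2 =>
    simp only [GRE.height] at he
    obtain ⟨N, h1⟩ := ih1 (by omega)
    obtain ⟨M, h2⟩ := ih2 (by omega)
    refine ⟨N + M, fun i j hi hj ⟨u, hu, v, hv, h⟩ => ?_⟩
    have h3 := congrArg List.length h
    rw [List.length_append, List.length_replicate] at h3
    rw [unit_eq u] at hu
    rw [unit_eq v] at hv
    have fin : ∀ a b, a + b = j → List.replicate a () ∈ e.lang → List.replicate b () ∈ f.lang →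
        List.replicate j () ∈ (GRE.concat e f).lang := fun a b h4 ha hb =>
      ⟨_, ha, _, hb, by rw [← h4, List.replicate_add]⟩
    by_cases c1 : u.length < N
    · exact fin u.length (j - u.length) (by omega) hu (h2 _ _ (by omega) (by omega) hv)
    · by_cases c2 : v.length < M
      · exact fin (j - v.length) v.length (by omega) (h1 _ _ (by omega) (by omega) hu) hv
      · exact fin N (j - N) (by omega) (h1 _ _ (by omega) le_rfl hu)
          (h2 _ _ (by omega) (by omega) hv)
  | compl e ih =>
    obtain ⟨N, h1⟩ := ih he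
    exact ⟨N, fun i j hi hj h h2 => h (h1 j i hj hi h2)⟩
  | star e _ => exact absurd he (Nat.succ_ne_zero _)

theorem one_le_H : 1 ≤ H := by
  let A : DFA Unit Bool := ⟨fun s _ => !s, true, {true}⟩
  refine le_iSup_of_le Unit (le_iSup_of_le inferInstance (le_iSup_of_le A.accepts
    (le_iSup_of_le ⟨Bool, inferInstance, A, rfl⟩ (le_iInf fun e => le_iInf fun he => ?_))))
  rw [Nat.one_le_cast, Nat.one_le_iff_ne_zero]
  intro h0
  obtain ⟨N, h⟩ := free_unit e h0
  have h1 : ∀ i, List.replicate i () ∈ e.lang ↔ A.eval (List.replicate i ()) = true := fun i => by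
    rw [he]; rfl
  have h2 : A.eval (List.replicate (N + 1) ()) = !A.eval (List.replicate N ()) := by
    rw [List.replicate_succ', DFA.eval_append_singleton]
  have h3 := h N (N + 1) le_rfl N.le_succ
  have h4 := h (N + 1) N N.le_succ le_rfl
  rw [h1, h1, h2] at h3 h4
  revert h3 h4
  cases A.eval (List.replicate N ()) <;> simp

theorem H_le_three : H ≤ 3 := by
  refine iSup_le fun α => iSup_le fun _ => iSup_le fun L => iSup_le fun hL => ?_
  obtain ⟨e, he, h⟩ := height_regular L hL
  exact iInf_le_of_le e (iInf_le_of_le h (by exact_mod_cast he))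

end bounds

end Vale.Agent.N329
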