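import Vale.Agent.N329.NfRec
import Mathlib.Computability.Partrec

/-! # A computable translation of automata into expressions in normal form -/

namespace Vale.Agent.N329.Nf

open Vale.Agent.P329Z Vale.Agent.P329Z.Ht

variable {k : ℕ}

/-- products of two lists of words -/
def prod (A B : List (List ℕ)) : List (List ℕ) := A.flatMap fun u => B.map (u ++ ·)

/-- products of at most `m` words -/
def starT (m : ℕ) (A : List (List ℕ)) : List (List ℕ) := (fun S => [] :: prod A S)^[m] [[]]

/-- all words of length at most `m` -/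
def allW (k m : ℕ) : List (List ℕ) := starT m ((List.range k).map ([·]))

/-- code, level, bound and short words of an expression -/
abbrev It := List ℕ × ℕ × ℕ × List (List ℕ)

/-- the data of the empty language -/
def opZ : It := ([0], 0, 1, [])

/-- the data of a union -/
def opA (x y : It) : It :=
  (x.1 ++ y.1 ++ [2], max x.2.1 y.2.1, x.2.2.1 * y.2.2.1, x.2.2.2 ++ y.2.2.2)

/-- the data of a product -/
def opM (x y : It) : It :=
  (x.1 ++ y.1 ++ [3], max x.2.1 y.2.1, x.2.2.1 * 2 ^ y.2.2.1, prod x.2.2.2 y.2.2.2)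

/-- the data of a complement -/
def opC (W : List (List ℕ)) (x : It) : It :=
  (x.1 ++ [4], if x.2.1 ≤ 2 then 3 else if x.2.1 ≤ 4 then 5 else 6, x.2.2.1,
    W.filter fun w => w ∉ x.2.2.2)

/-- the data of a star -/
def opS (m : ℕ) (x : It) : It :=
  (x.1 ++ [5], if x.2.1 ≤ 1 then x.2.1 + 1 else if x.2.1 ≤ 3 then 4 else 6, 2 * 2 ^ x.2.2.1,
    starT m x.2.2.2)

/-- the data of an expression -/
def item (m : ℕ) : Ex (Fin k) → It
  | .zero => opZ
  | .one => ([1], 0, 2, [[]])
  | .letter a => ([6 + a], 0, 4, [[a]])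
  | .add e f => opA (item m e) (item m f)
  | .mul e f => opM (item m e) (item m f)
  | .compl e => opC (allW k m) (item m e)
  | .star e => opS m (item m e)

/-- one step of the parser -/
def pstep (st : List (Ex (Fin k))) (t : ℕ) : List (Ex (Fin k)) :=
  if t = 1 then .one :: st
  else if t = 2 then .add (st.getD 1 .zero) (st.getD 0 .zero) :: st.drop 2
  else if t = 3 then .mul (st.getD 1 .zero) (st.getD 0 .zero) :: st.drop 2
  else if t = 4 then .compl (st.getD 0 .zero) :: st.drop 1
  else if t = 5 then .star (st.getD 0 .zero) :: st.drop 1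
  else if h : 6 ≤ t ∧ t - 6 < k then .letter ⟨t - 6, h.2⟩ :: st else .zero :: st

/-- one step of the evaluation -/
def step (k m : ℕ) (st : List It) (t : ℕ) : List It :=
  if t = 1 then ([1], 0, 2, [[]]) :: st
  else if t = 2 then opA (st.getD 1 opZ) (st.getD 0 opZ) :: st.drop 2
  else if t = 3 then opM (st.getD 1 opZ) (st.getD 0 opZ) :: st.drop 2
  else if t = 4 then opC (allW k m) (st.getD 0 opZ) :: st.drop 1
  else if t = 5 then opS m (st.getD 0 opZ) :: st.drop 1
  else if 6 ≤ t ∧ t - 6 < k then ([6 + (t - 6)], 0, 4, [[t - 6]]) :: st else opZ :: st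

theorem getD_item (m i : ℕ) (st : List (Ex (Fin k))) :
    (st.map (item m)).getD i opZ = item m (st.getD i .zero) := List.getD_map st .zero (item m)

theorem fold_item (m : ℕ) (c : List ℕ) : ∀ st : List (Ex (Fin k)),
    c.foldl (step k m) (st.map (item m)) = (c.foldl pstep st).map (item m) := by
  induction c with
  | nil => exact fun _ => rfl
  | cons t c ih =>
    intro st
    rw [List.foldl_cons, List.foldl_cons, ← ih]
    congr 1
    unfold step pstep
    simp only [getD_item, ← List.map_drop]
    split_ifs <;> rfl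

theorem parse_code (e : Ex (Fin k)) : ∀ st, e.code.foldl pstep st = e :: st := by
  induction e with
  | zero => intro st; simp [Ex.code, pstep]
  | one => intro st; simp [Ex.code, pstep]
  | letter a =>
    intro st
    simp only [Ex.code, List.foldl, pstep]
    rw [if_neg (by omega), if_neg (by omega), if_neg (by omega), if_neg (by omega),
      if_neg (by omega), dif_pos ⟨by omega, by omega⟩]
    simp
  | add e f h1 h2 => intro st; simp [Ex.code, h1, h2, pstep]
  | mul e f h1 h2 => intro st; simp [Ex.code, h1, h2, pstep]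
  | compl e h => intro st; simp [Ex.code, h, pstep]
  | star e h => intro st; simp [Ex.code, h, pstep]

theorem code_injective : Function.Injective (Ex.code (k := k)) := fun e f h => by
  have := parse_code e []
  rw [h, parse_code] at this
  exact (List.cons.inj this).1.symm

theorem mem_prod {A B : List (List ℕ)} {w : List (Fin k)} : w.map Fin.val ∈ prod A B ↔
    ∃ u v : List (Fin k), u.map Fin.val ∈ A ∧ v.map Fin.val ∈ B ∧ u ++ v = w := by
  simp only [prod, List.mem_flatMap, List.mem_map]
  constructor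
  · rintro ⟨a, ha, b, hb, h⟩
    obtain ⟨u, v, rfl, rfl, rfl⟩ := List.map_eq_append_iff.1 h.symm
    exact ⟨u, v, ha, hb, rfl⟩
  · rintro ⟨u, v, hu, hv, rfl⟩
    exact ⟨_, hu, _, hv, List.map_append.symm⟩

theorem starT_succ (j : ℕ) (A : List (List ℕ)) : starT (j + 1) A = [] :: prod A (starT j A) :=
  Function.iterate_succ_apply' _ _ _

theorem star_spec {m : ℕ} {T : List (List ℕ)} {L : Set (List (Fin k))}
    (h : ∀ w : List (Fin k), w.length ≤ m → (w.map Fin.val ∈ T ↔ w ∈ L)) (j : ℕ) :
    ∀ w : List (Fin k), w.length ≤ m → (w.map Fin.val ∈ starT j T → w ∈ kst L) ∧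
      (w.length ≤ j → w ∈ kst L → w.map Fin.val ∈ starT j T) := by
  induction j with
  | zero =>
    intro w _
    cases w with
    | nil => exact ⟨fun _ => kst_nil _, fun _ _ => List.mem_singleton.2 rfl⟩
    | cons a w => simp [starT]
  | succ j ih =>
    intro w hw
    rw [starT_succ, List.mem_cons, mem_prod, List.map_eq_nil_iff]
    refine ⟨?_, fun h1 h2 => ?_⟩
    · rintro (rfl | ⟨u, v, hu, hv, rfl⟩)
      · exact kst_nil _
      · rw [List.length_append] at hw
        exact kst_cons ((h u (by omega)).1 hu) ((ih v (by omega)).1 hv)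
    · have h3 : w ∈ kst L ∧ (w = [] ∨ ∃ u ∈ L, u ≠ [] ∧ ∃ v ∈ kst L, u ++ v = w) := by
        refine kst_ind (p := fun w => w ∈ kst L ∧ (w = [] ∨ ∃ u ∈ L, u ≠ [] ∧ ∃ v ∈ kst L,
          u ++ v = w)) ⟨kst_nil _, Or.inl rfl⟩ (fun u v hu hv => ⟨kst_cons hu hv.1, ?_⟩) h2
        by_cases c : u = []
        · subst c
          exact hv.2
        · exact Or.inr ⟨u, hu, c, v, hv.1, rfl⟩
      refine h3.2.imp_right ?_
      rintro ⟨u, hu, c, v, hv, rfl⟩
      have := List.length_pos_iff.2 c
      rw [List.length_append] at hw h1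
      exact ⟨u, v, (h u (by omega)).2 hu, (ih v (by omega)).2 (by omega) hv, rfl⟩

theorem mem_allW {m : ℕ} {v : List ℕ} :
    v ∈ allW k m ↔ ∃ w : List (Fin k), w.length ≤ m ∧ w.map Fin.val = v := by
  unfold allW
  induction m generalizing v with
  | zero => simp [starT, eq_comm]
  | succ m ih =>
    simp only [starT_succ, prod, List.mem_cons, List.mem_flatMap, List.mem_map, List.mem_range, ih]
    constructor
    · rintro (rfl | ⟨_, ⟨a, ha, rfl⟩, _, ⟨w, hw, rfl⟩, rfl⟩)
      · exact ⟨[], Nat.zero_le _, rfl⟩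
      · exact ⟨⟨a, ha⟩ :: w, Nat.succ_le_succ hw, rfl⟩
    · rintro ⟨_ | ⟨a, w⟩, hw, rfl⟩
      · exact Or.inl rfl
      · exact Or.inr ⟨_, ⟨a, a.2, rfl⟩, _, ⟨w, Nat.le_of_succ_le_succ hw, rfl⟩, rfl⟩

theorem item_spec (m : ℕ) (e : Ex (Fin k)) : (item m e).1 = e.code ∧ (item m e).2.1 = e.lev ∧
    (item m e).2.2.1 = e.bnd ∧
    ∀ w : List (Fin k), w.length ≤ m → (w.map Fin.val ∈ (item m e).2.2.2 ↔ w ∈ e.lang) := by
  induction e with
  | zero => exact ⟨rfl, rfl, rfl, fun w _ => by simp [item, opZ, Ex.lang]⟩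
  | one => exact ⟨rfl, rfl, rfl, fun w _ => by simp [item, Ex.lang]⟩
  | letter a => exact ⟨rfl, rfl, rfl, fun w _ => List.mem_singleton.trans
      ((List.map_injective_iff.2 Fin.val_injective).eq_iff (b := [a]))⟩
  | add e f h1 h2 =>
    obtain ⟨a, b, c, d⟩ := h1
    obtain ⟨a', b', c', d'⟩ := h2
    exact ⟨by simp only [item, opA, a, a', Ex.code], by simp only [item, opA, b, b', Ex.lev],
      by simp only [item, opA, c, c', Ex.bnd],
      fun w hw => List.mem_append.trans (or_congr (d w hw) (d' w hw))⟩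
  | mul e f h1 h2 =>
    obtain ⟨a, b, c, d⟩ := h1
    obtain ⟨a', b', c', d'⟩ := h2
    refine ⟨by simp only [item, opM, a, a', Ex.code], by simp only [item, opM, b, b', Ex.lev],
      by simp only [item, opM, c, c', Ex.bnd], fun w hw => mem_prod.trans ⟨?_, ?_⟩⟩
    · rintro ⟨u, v, hu, hv, rfl⟩
      rw [List.length_append] at hw
      exact ⟨u, (d u (by omega)).1 hu, v, (d' v (by omega)).1 hv, rfl⟩
    · rintro ⟨u, hu, v, hv, rfl⟩
      simp only [List.length_append] at hw
      exact ⟨u, v, (d u (by omega)).2 hu, (d' v (by omega)).2 hv, rfl⟩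
  | compl e h =>
    obtain ⟨a, b, c, d⟩ := h
    refine ⟨by simp only [item, opC, a, Ex.code], by simp only [item, opC, b, Ex.lev],
      by simp only [item, opC, c, Ex.bnd], fun w hw => ?_⟩
    simp only [item, opC, List.mem_filter, decide_eq_true_eq, d w hw]
    exact and_iff_right (mem_allW.2 ⟨w, hw, rfl⟩)
  | star e h =>
    obtain ⟨a, b, c, d⟩ := h
    refine ⟨by simp only [item, opS, a, Ex.code], by simp only [item, opS, b, Ex.lev],
      by simp only [item, opS, c, Ex.bnd], fun w hw => ?_⟩
    rw [Ex.lang, kstar_eq]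
    exact ⟨(star_spec d m w hw).1, (star_spec d m w hw).2 hw⟩

/-- number of letters, transition table, start state, accepting states -/
abbrev Inp := ℕ × List (List ℕ) × ℕ × List ℕ

/-- the state after a word -/
def runT (T : List (List ℕ)) (s : ℕ) (w : List ℕ) : ℕ :=
  w.foldl (fun s a => (T.getD s []).getD a 0) s

/-- the language of a table -/
def tabLang (d : Inp) : Language (Fin d.1) := {w | runT d.2.1 d.2.2.1 (w.map Fin.val) ∈ d.2.2.2}

theorem rec_tab (d : Inp) : Rec (d.2.1.flatten.length + 2) (tabLang d) := by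
  have h : ∀ (w : List ℕ) (s : ℕ), runT d.2.1 s w ∈ (s :: 0 :: d.2.1.flatten).toFinset := by
    intro w s
    induction w using List.reverseRecOn with
    | nil => simp [runT]
    | append_singleton w a _ =>
      rw [runT, List.foldl_append, List.foldl_cons, List.foldl_nil, List.mem_toFinset]
      generalize List.foldl _ s w = t
      refine List.mem_cons_of_mem _ (List.mem_cons.2 ?_)
      by_cases c : a < (d.2.1.getD t []).length
      · have c' : t < d.2.1.length := by
          by_contra c'
          rw [List.getD_eq_default _ _ (not_lt.1 c')] at c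
          exact absurd c (Nat.not_lt_zero _)
        rw [List.getD_eq_getElem _ _ c]
        exact Or.inr (List.mem_flatten.2 ⟨_, by
          rw [List.getD_eq_getElem _ _ c']; exact List.getElem_mem _, List.getElem_mem _⟩)
      · exact Or.inl (List.getD_eq_default _ _ (not_lt.1 c))
  refine ⟨(d.2.2.1 :: 0 :: d.2.1.flatten).toFinset, inferInstance,
    fun u => ⟨_, h (u.map Fin.val) _⟩, ?_, fun u v huv w hw => ?_⟩
  · rw [Nat.card_eq_finsetCard]
    exact List.toFinset_card_le _
  · have h1 := Subtype.mk.inj huv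
    simp only [tabLang, runT, Set.mem_ofPred_eq, List.map_append, List.foldl_append] at hw h1 ⊢
    rwa [← h1]

theorem tab_table {n : ℕ} (A : DFA (Fin k) (Fin n)) : tabLang (table A) = A.accepts := by
  have h : ∀ (w : List (Fin k)) (s : Fin n),
      runT (table A).2.1 s (w.map Fin.val) = A.evalFrom s w := by
    intro w
    induction w with
    | nil => exact fun _ => rfl
    | cons a w ih =>
      intro s
      rw [DFA.evalFrom_cons, ← ih]
      simp [runT, table]
  have h' : ∀ w : List (Fin k), runT (table A).2.1 A.start (List.map Fin.val w) ∈ (table A).2.2.2 ↔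
      A.evalFrom A.start w ∈ A.accept := fun w => by
    rw [h]
    simp [table, Fin.val_inj]
  exact Set.ext h'

/-- the data on top of the stack -/
def top (k : ℕ) (c : List ℕ × ℕ) : It := (c.1.foldl (step k c.2) []).getD 0 opZ

/-- the test of a candidate -/
def Test (d : Inp) (c : List ℕ × ℕ) : Prop :=
  (top d.1 c).2.1 ≤ 5 ∧ (top d.1 c).2.2.1 * (d.2.1.flatten.length + 2) ≤ c.2 ∧
    ∀ w ∈ allW d.1 c.2, (w ∈ (top d.1 c).2.2.2 ↔ runT d.2.1 d.2.2.1 w ∈ d.2.2.2)

theorem top_eq (c : List ℕ × ℕ) :
    top k c = item c.2 ((c.1.foldl (pstep (k := k)) []).getD 0 .zero) := by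
  rw [← getD_item, ← fold_item]
  rfl

theorem Test.sound {d : Inp} {c : List ℕ × ℕ} (h : Test d c) :
    ∃ e : Ex (Fin d.1), e.lev ≤ 5 ∧ e.lang = tabLang d ∧ (top d.1 c).1 = e.code := by
  unfold Test at h
  rw [top_eq] at h ⊢
  generalize List.getD _ 0 Ex.zero = e at h ⊢
  obtain ⟨a, b, c', d'⟩ := item_spec c.2 e
  rw [b, c'] at h
  exact ⟨e, h.1, e.rec_bnd.eq (rec_tab d) fun w hw => (d' w (by omega)).symm.trans
    (h.2.2 _ (mem_allW.2 ⟨w, by omega, rfl⟩)), a⟩

theorem exists_test (d : Inp) : ∃ c, Test d c := by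
  obtain ⟨e, h1, h2⟩ := level_regular (tabLang d) (rec_tab d).regular
  refine ⟨(e.code, e.bnd * (d.2.1.flatten.length + 2)), ?_⟩
  unfold Test
  rw [top_eq, parse_code]
  obtain ⟨-, b, c, d'⟩ := item_spec (e.bnd * (d.2.1.flatten.length + 2)) e
  refine ⟨b.le.trans h1, Nat.mul_le_mul_right _ c.le, fun v hv => ?_⟩
  obtain ⟨w, hw, rfl⟩ := mem_allW.1 hv
  exact (d' w hw).trans (h2 ▸ Iff.rfl)

section primrec

open Primrec

theorem prod_prim : Primrec₂ prod :=
  (list_flatMap fst (list_map (snd.comp fst) (list_append.comp (snd.comp fst) snd).to₂).to₂).to₂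

theorem starT_prim : Primrec₂ starT :=
  (nat_iterate fst (const [[]])
    (list_cons.comp (const []) (prod_prim.comp (snd.comp fst) snd)).to₂).to₂

theorem allW_prim : Primrec₂ allW :=
  (starT_prim.comp snd (list_map (list_range.comp fst) (list_cons.comp snd (const [])).to₂)).to₂

theorem pow_prim : Primrec fun n : ℕ => 2 ^ n :=
  (Primrec₂.unpaired'.1 Nat.Primrec.pow).comp (const 2) .id

theorem mem_prim {β : Type} [Primcodable β] : PrimrecRel fun (w : β) (L : List β) => w ∈ L :=
  ((PrimrecRel.exists_mem_list Primrec.eq).comp snd fst).of_eq fun p => by simp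

theorem p1 : Primrec fun x : It => x.2.1 := fst.comp snd

theorem p2 : Primrec fun x : It => x.2.2.1 := fst.comp (snd.comp snd)

theorem p3 : Primrec fun x : It => x.2.2.2 := snd.comp (snd.comp snd)

theorem opA_prim : Primrec₂ opA :=
  (pair (list_append.comp (list_append.comp (fst.comp fst) (fst.comp snd)) (const _))
    (pair (nat_max.comp (p1.comp fst) (p1.comp snd)) (pair (nat_mul.comp (p2.comp fst) (p2.comp snd))
      (list_append.comp (p3.comp fst) (p3.comp snd))))).to₂

theorem opM_prim : Primrec₂ opM :=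
  (pair (list_append.comp (list_append.comp (fst.comp fst) (fst.comp snd)) (const _))
    (pair (nat_max.comp (p1.comp fst) (p1.comp snd))
      (pair (nat_mul.comp (p2.comp fst) (pow_prim.comp (p2.comp snd)))
        (prod_prim.comp (p3.comp fst) (p3.comp snd))))).to₂

theorem opC_prim : Primrec₂ opC :=
  (pair (list_append.comp (fst.comp snd) (const _))
    (pair (ite (nat_le.comp (p1.comp snd) (const 2)) (const 3)
      (ite (nat_le.comp (p1.comp snd) (const 4)) (const 5) (const 6)))
      (pair (p2.comp snd) (mem_prim.not.listFilter.comp fst (p3.comp snd))))).to₂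

theorem opS_prim : Primrec₂ opS :=
  (pair (list_append.comp (fst.comp snd) (const _))
    (pair (ite (nat_le.comp (p1.comp snd) (const 1)) (succ.comp (p1.comp snd))
      (ite (nat_le.comp (p1.comp snd) (const 3)) (const 4) (const 6)))
      (pair (nat_double.comp (pow_prim.comp (p2.comp snd)))
        (starT_prim.comp fst (p3.comp snd))))).to₂

theorem step_prim : Primrec fun p : (ℕ × ℕ) × List It × ℕ => step p.1.1 p.1.2 p.2.1 p.2.2 := by
  have st : Primrec fun p : (ℕ × ℕ) × List It × ℕ => p.2.1 := fst.comp snd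
  have t : Primrec fun p : (ℕ × ℕ) × List It × ℕ => p.2.2 := snd.comp snd
  have g := fun i : ℕ => (list_getD opZ).comp st (const i)
  have d := fun i : ℕ => list_drop.comp (const i) st
  have e := fun i : ℕ => Primrec.eq.comp t (const i)
  have s := nat_sub.comp t (const 6)
  exact ite (e 1) (list_cons.comp (const _) st)
    (ite (e 2) (list_cons.comp (opA_prim.comp (g 1) (g 0)) (d 2))
    (ite (e 3) (list_cons.comp (opM_prim.comp (g 1) (g 0)) (d 2))
    (ite (e 4) (list_cons.comp (opC_prim.comp (allW_prim.comp (fst.comp fst) (snd.comp fst)) (g 0))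
      (d 1))
    (ite (e 5) (list_cons.comp (opS_prim.comp (snd.comp fst) (g 0)) (d 1))
    (ite ((nat_le.comp (const 6) t).and (nat_lt.comp s (fst.comp fst)))
      (list_cons.comp (pair (list_cons.comp (nat_add.comp (const 6) s) (const [])) (pair (const 0)
        (pair (const 4) (list_cons.comp (list_cons.comp s (const [])) (const []))))) st)
      (list_cons.comp (const _) st))))))

theorem top_prim : Primrec₂ top :=
  ((list_getD opZ).comp (list_foldl (fst.comp snd) (const [])
    (step_prim.comp (pair (pair (fst.comp fst) (snd.comp (snd.comp fst))) snd)).to₂) (const 0)).to₂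

theorem runT_prim : Primrec fun p : (List (List ℕ) × ℕ) × List ℕ => runT p.1.1 p.1.2 p.2 :=
  list_foldl snd (snd.comp fst) ((list_getD 0).comp ((list_getD []).comp
    (fst.comp (fst.comp fst)) (fst.comp snd)) (snd.comp snd)).to₂

theorem test_aux {β : Type} [Primcodable β] {t : β → It} {n m : β → ℕ} {W : β → List (List ℕ)}
    {r : β → List ℕ → ℕ} {F : β → List ℕ} (ht : Primrec t) (hn : Primrec n) (hm : Primrec m)
    (hW : Primrec W) (hr : Primrec₂ r) (hF : Primrec F) : PrimrecPred fun p =>
      (t p).2.1 ≤ 5 ∧ (t p).2.2.1 * (n p + 2) ≤ m p ∧ ∀ w ∈ W p, (w ∈ (t p).2.2.2 ↔ r p w ∈ F p) := by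
  have a : PrimrecRel fun (w : List ℕ) (p : β) => w ∈ (t p).2.2.2 :=
    mem_prim.comp fst (p3.comp (ht.comp snd))
  have b : PrimrecRel fun (w : List ℕ) (p : β) => r p w ∈ F p :=
    mem_prim.comp (hr.comp snd fst) (hF.comp snd)
  have c : PrimrecRel fun (w : List ℕ) (p : β) => w ∈ (t p).2.2.2 ↔ r p w ∈ F p :=
    ((PrimrecPred.and a b).or (PrimrecPred.and a.not b.not)).of_eq fun p => by tauto
  exact (nat_le.comp (p1.comp ht) (const 5)).and ((nat_le.comp (nat_mul.comp (p2.comp ht)
    (nat_add.comp hn (const 2))) hm).and (c.forall_mem_list.comp hW .id))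

theorem test_prim : PrimrecRel Test := by
  have T : Primrec fun p : Inp × List ℕ × ℕ => p.1.2.1 := fst.comp (snd.comp fst)
  have r : Primrec₂ fun (p : Inp × List ℕ × ℕ) w => runT p.1.2.1 p.1.2.2.1 w :=
    (runT_prim.comp (pair (pair (T.comp fst) (fst.comp (snd.comp (snd.comp (fst.comp fst)))))
      snd)).of_eq fun _ => rfl
  exact test_aux (top_prim.comp (fst.comp fst) snd) (list_length.comp (list_flatten.comp T))
    (snd.comp snd) (allW_prim.comp (fst.comp fst) (snd.comp snd)) r
    (snd.comp (snd.comp (snd.comp fst)))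

end primrec

theorem effective : ∃ F : Inp → List ℕ, Computable F ∧ ∀ (k n : ℕ) (A : DFA (Fin k) (Fin n)),
    ∃ e : Ex (Fin k), e.height ≤ 3 ∧ e.Normal ∧ e.lang = A.accepts ∧ F (table A) = e.code := by
  classical
  let o := Denumerable.ofNat (List ℕ × ℕ)
  let G : Inp → ℕ → Option (List ℕ) := fun d i =>
    if Test d (o i) then some (top d.1 (o i)).1 else none
  have o' : Primrec fun p : Inp × ℕ => o p.2 := (Primrec.ofNat _).comp Primrec.snd
  have hG : Primrec₂ G := Primrec.ite (test_prim.comp Primrec.fst o') (Primrec.option_some.comp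
    (Primrec.fst.comp (top_prim.comp (Primrec.fst.comp Primrec.fst) o'))) (Primrec.const _)
  have dom : ∀ d, (Nat.rfindOpt (G d)).Dom := fun d => by
    obtain ⟨c, hc⟩ := exists_test d
    refine Nat.rfindOpt_dom.2 ⟨Encodable.encode c, (top d.1 c).1, ?_⟩
    simp only [G, o, Denumerable.ofNat_encode, if_pos hc, Option.mem_def]
  refine ⟨fun d => (Nat.rfindOpt (G d)).get (dom d),
    (Partrec.rfindOpt hG.to_comp).of_eq_tot fun d => Part.get_mem _, fun k n A => ?_⟩
  obtain ⟨i, hi⟩ := Nat.rfindOpt_spec (Part.get_mem (dom (table A)))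
  by_cases c : Test (table A) (o i)
  · obtain ⟨e, h1, h2, h3⟩ := c.sound
    simp only [G, if_pos c, Option.mem_def, Option.some.injEq] at hi
    exact ⟨e, (Ex.normal h1).1, (Ex.normal h1).2, h2.trans (tab_table A), hi.symm.trans h3⟩
  · simp [G, c] at hi

end Vale.Agent.N329.Nf
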