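import Mathlib.Computability.DFA
import Mathlib.Data.ENat.Lattice
import Mathlib.Data.List.FinRange

/-! Generalized regular expressions, with their languages in the sense of the library. -/

namespace Vale.Agent.N329.Nf

/-- generalized regular expressions -/
inductive Ex (α : Type) : Type
  | zero : Ex α
  | one : Ex α
  | letter : α → Ex α
  | add : Ex α → Ex α → Ex α
  | mul : Ex α → Ex α → Ex α
  | compl : Ex α → Ex α
  | star : Ex α → Ex α

/-- the language of an expression -/
def Ex.lang {α : Type} : Ex α → Language α
  | .zero => 0
  | .one => 1
  | .letter a => {[a]}
  | .add e f => e.lang + f.lang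
  | .mul e f => e.lang * f.lang
  | .compl e => (e.lang)ᶜ
  | .star e => KStar.kstar e.lang

/-- the star height of an expression -/
def Ex.height {α : Type} : Ex α → ℕ
  | .zero => 0
  | .one => 0
  | .letter _ => 0
  | .add e f => max e.height f.height
  | .mul e f => max e.height f.height
  | .compl e => e.height
  | .star e => e.height + 1

/-- the generalized star height of a language -/
noncomputable def hgt {α : Type} (L : Language α) : ℕ∞ :=
  ⨅ (e : Ex α) (_ : e.lang = L), (e.height : ℕ∞)

/-- the supremum of the heights of all regular languages over all finite alphabets -/
noncomputable def H : ℕ∞ :=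
  ⨆ (α : Type) (_ : Finite α) (L : Language α) (_ : L.IsRegular), hgt L

/-- for every leaf of the expression, the list of the complements (`false`) and the stars (`true`)
on the way from the root to the leaf -/
def Ex.branches {α : Type} : Ex α → List (List Bool)
  | .zero => [[]]
  | .one => [[]]
  | .letter _ => [[]]
  | .add e f => e.branches ++ f.branches
  | .mul e f => e.branches ++ f.branches
  | .compl e => e.branches.map (false :: ·)
  | .star e => e.branches.map (true :: ·)

/-- on every branch the complements and stars form a subsequence of
complement, star, complement, star, star -/
def Ex.Normal {α : Type} (e : Ex α) : Prop :=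
  ∀ s ∈ e.branches, s.Sublist [false, true, false, true, true]

/-- the expression in reverse Polish form, as a list of numbers -/
def Ex.code {k : ℕ} : Ex (Fin k) → List ℕ
  | .zero => [0]
  | .one => [1]
  | .letter a => [6 + a]
  | .add e f => e.code ++ f.code ++ [2]
  | .mul e f => e.code ++ f.code ++ [3]
  | .compl e => e.code ++ [4]
  | .star e => e.code ++ [5]

open Classical in
/-- the number of letters, the transition table, the start state and the accepting states -/
noncomputable def table {k n : ℕ} (A : DFA (Fin k) (Fin n)) :
    ℕ × List (List ℕ) × ℕ × List ℕ :=
  (k, List.ofFn fun s => List.ofFn fun a => (A.step s a : ℕ), A.start,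
    ((List.finRange n).filter (· ∈ A.accept)).map Fin.val)

end Vale.Agent.N329.Nf
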