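import Vale.Agent.P329Z.Final
import Vale.Agent.N329.NfDefs

/-! # The normal form: complement, star, complement, star, star -/

namespace Vale.Agent.N329.Nf

open Vale.Agent.P329Z Vale.Agent.P329Z.Ht
open Vale.Agent.P329.Clock (Srv lines)

variable {α S X : Type}

/-- the length of the end of the pattern which the expression needs -/
def Ex.lev : Ex α → ℕ
  | .zero => 0
  | .one => 0
  | .letter _ => 0
  | .add e f => max e.lev f.lev
  | .mul e f => max e.lev f.lev
  | .compl e => if e.lev ≤ 2 then 3 else if e.lev ≤ 4 then 5 else 6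
  | .star e => if e.lev ≤ 1 then e.lev + 1 else if e.lev ≤ 3 then 4 else 6

theorem Ex.of_lev (e : Ex α) : ∀ l ≤ 5, e.lev ≤ l → e.height ≤ min l 2 + l / 4 ∧
    ∀ s ∈ e.branches, s.Sublist ([false, true, false, true, true].drop (5 - l)) := by
  have d := @List.drop_sublist_drop_left _ [false, true, false, true, true]
  induction e with
  | zero => simp [Ex.height, Ex.branches]
  | one => simp [Ex.height, Ex.branches]
  | letter a => simp [Ex.height, Ex.branches]
  | add e f h1 h2 =>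
    intro l hl h
    obtain ⟨h3, h4⟩ := max_le_iff.1 h
    exact ⟨max_le (h1 l hl h3).1 (h2 l hl h4).1, fun s hs =>
      (List.mem_append.1 hs).elim ((h1 l hl h3).2 s) ((h2 l hl h4).2 s)⟩
  | mul e f h1 h2 =>
    intro l hl h
    obtain ⟨h3, h4⟩ := max_le_iff.1 h
    exact ⟨max_le (h1 l hl h3).1 (h2 l hl h4).1, fun s hs =>
      (List.mem_append.1 hs).elim ((h1 l hl h3).2 s) ((h2 l hl h4).2 s)⟩
  | compl e ih =>
    intro l hl h
    simp only [Ex.lev, Ex.height, Ex.branches, List.forall_mem_map] at h ⊢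
    split_ifs at h with c1 c2
    · obtain ⟨h1, h2⟩ := ih 2 (by omega) c1
      exact ⟨by omega, fun s hs => ((h2 s hs).cons_cons false).trans
        (d (show 5 - l ≤ 2 by omega))⟩
    · obtain ⟨h1, h2⟩ := ih 4 (by omega) c2
      exact ⟨by omega, fun s hs => ((h2 s hs).cons_cons false).trans
        (d (show 5 - l ≤ 0 by omega))⟩
    · omega
  | star e ih =>
    intro l hl h
    simp only [Ex.lev, Ex.height, Ex.branches, List.forall_mem_map] at h ⊢
    split_ifs at h with c1 c2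
    · rcases Nat.le_one_iff_eq_zero_or_eq_one.1 c1 with c | c
      · obtain ⟨h1, h2⟩ := ih 0 (by omega) c.le
        exact ⟨by omega, fun s hs => ((h2 s hs).cons_cons true).trans
          (d (show 5 - l ≤ 4 by omega))⟩
      · obtain ⟨h1, h2⟩ := ih 1 (by omega) c.le
        exact ⟨by omega, fun s hs => ((h2 s hs).cons_cons true).trans
          (d (show 5 - l ≤ 3 by omega))⟩
    · obtain ⟨h1, h2⟩ := ih 3 (by omega) c2
      exact ⟨by omega, fun s hs => ((h2 s hs).cons_cons true).trans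
        (d (show 5 - l ≤ 1 by omega))⟩
    · omega

theorem Ex.normal {e : Ex α} (h : e.lev ≤ 5) : e.height ≤ 3 ∧ e.Normal := e.of_lev 5 le_rfl h

theorem kstar_eq (A : Language α) : KStar.kstar A = kst A :=
  Set.ext fun _ => exists_congr fun _ => ⟨fun h => ⟨h.2, h.1.symm⟩, fun h => ⟨h.2.symm, h.1⟩⟩

/-- the language has an expression of level at most `k` -/
def LV (k : ℕ) (A : Set (List α)) : Prop := ∃ e : Ex α, e.lev ≤ k ∧ e.lang = A

namespace LV

variable {k l : ℕ} {A B : Set (List α)}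

theorem mono (h : k ≤ l) : LV k A → LV l A := fun ⟨e, he, h'⟩ => ⟨e, he.trans h, h'⟩

theorem empty : LV k (∅ : Set (List α)) := ⟨.zero, Nat.zero_le _, rfl⟩

theorem single (a : α) : LV k {[a]} := ⟨.letter a, Nat.zero_le _, rfl⟩

theorem union : LV k A → LV k B → LV k (A ∪ B) := by
  rintro ⟨e, he, rfl⟩ ⟨f, hf, rfl⟩
  exact ⟨.add e f, max_le he hf, rfl⟩

theorem cat : LV k A → LV k B → LV k (cat A B) := by
  rintro ⟨e, he, rfl⟩ ⟨f, hf, rfl⟩
  exact ⟨.mul e f, max_le he hf, rfl⟩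

theorem kst (h : k ≤ 1 ∧ l = k + 1 ∨ k = 3 ∧ l = 4) : LV k A → LV l (kst A) := by
  rintro ⟨e, he, rfl⟩
  refine ⟨.star e, ?_, kstar_eq _⟩
  simp only [Ex.lev]
  split_ifs <;> omega

theorem compl (h : k = 2 ∧ l = 3 ∨ k = 4 ∧ l = 5) : LV k A → LV l Aᶜ := by
  rintro ⟨e, he, rfl⟩
  refine ⟨.compl e, ?_, rfl⟩
  simp only [Ex.lev]
  split_ifs <;> omega

theorem congr (hA : LV k A) (h : ∀ w, w ∈ B ↔ w ∈ A) : LV k B := by
  rw [show B = A from Set.ext h]; exact hA

theorem biUnion {ι : Type*} {s : Set ι} (hs : s.Finite) {L : ι → Set (List α)}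
    (h : ∀ i ∈ s, LV k (L i)) : LV k (⋃ i ∈ s, L i) := by
  induction s, hs using Set.Finite.induction_on with
  | empty => simpa using empty
  | insert _ _ ih =>
    rw [Set.biUnion_insert]
    exact (h _ (Set.mem_insert _ _)).union (ih fun i hi => h i (Set.mem_insert_of_mem _ hi))

theorem iUnion {ι : Type*} [Finite ι] {L : ι → Set (List α)} (h : ∀ i, LV k (L i)) :
    LV k (⋃ i, L i) := by
  simpa using biUnion Set.finite_univ fun i _ => h i

theorem iUnion_prop {p : Prop} (h : LV k A) : LV k (⋃ _ : p, A) := by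
  by_cases hp : p
  · simpa [hp] using h
  · simpa [hp] using empty

theorem word (w : List α) : LV k ({w} : Set (List α)) := by
  induction w with
  | nil => exact ⟨.one, Nat.zero_le _, rfl⟩
  | cons a w ih =>
    refine ((single a).cat ih).congr fun v => ⟨?_, ?_⟩
    · rintro rfl
      exact ⟨[a], rfl, w, rfl, rfl⟩
    · rintro ⟨_, rfl, _, rfl, rfl⟩
      rfl

theorem finite (hA : A.Finite) : LV k A := by
  simpa using biUnion hA fun w _ => word (k := k) w

theorem univ [Finite α] : LV 1 (Set.univ : Set (List α)) :=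
  ((iUnion fun a : α => single (k := 0) a).kst (by omega)).congr fun w => iff_of_true trivial (by
    induction w with
    | nil => exact kst_nil _
    | cons a w ih => exact kst_cons (k := [a]) (Set.mem_iUnion.2 ⟨a, rfl⟩) ih)

end LV

/-- inside `Z` every finite automaton is evaluated on level one -/
def Good (Z : Set (List α)) : Prop :=
  ∀ (S : Type) [Finite S] (step : S → α → S) (s t : S), LV 1 {u | u ∈ Z ∧ run step s u = t}

theorem Good.congr {A B : Set (List α)} (h : Good A) (e : ∀ w, w ∈ B ↔ w ∈ A) : Good B := by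
  rw [show B = A from Set.ext e]; exact h

theorem good_finite {A : Set (List α)} (h : A.Finite) : Good A :=
  fun _ _ _ _ _ => LV.finite (h.subset fun _ hu => hu.1)

theorem Good.union {A B : Set (List α)} (hA : Good A) (hB : Good B) : Good (A ∪ B) :=
  fun S _ step s t => ((hA S step s t).union (hB S step s t)).congr fun w => by
    simp only [Set.mem_union, Set.mem_ofPred_eq]; tauto

theorem good_biUnion {ι : Type} {I : Set ι} (hI : I.Finite) {A : ι → Set (List α)}
    (h : ∀ i ∈ I, Good (A i)) : Good (⋃ i ∈ I, A i) :=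
  fun S _ step s t => (LV.biUnion hI fun i hi => h i hi S step s t).congr fun w => by
    simp only [Set.mem_iUnion, Set.mem_ofPred_eq]; tauto

theorem Good.cat {A B : Set (List α)} (hA : Good A) (hB : Good B) : Good (cat A B) :=
  fun S _ step s t => (LV.iUnion fun m : S => (hA S step s m).cat (hB S step m t)).congr fun w => by
    simp only [Set.mem_iUnion, Set.mem_ofPred_eq, P329Z.cat]
    constructor
    · rintro ⟨⟨u, hu, v, hv, rfl⟩, h⟩
      exact ⟨_, u, ⟨hu, rfl⟩, v, ⟨hv, by rwa [run_append] at h⟩, rfl⟩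
    · rintro ⟨m, u, ⟨hu, rfl⟩, v, ⟨hv, h⟩, rfl⟩
      exact ⟨⟨u, hu, v, hv, rfl⟩, by rwa [run_append]⟩

theorem good_pw (z : List α) : Good {u | ∃ j, u = pw z j} := by
  intro S _ step s t
  obtain ⟨a, e, he, h⟩ : ∃ a e, 0 < e ∧ run step s (pw z (a + e)) = run step s (pw z a) := by
    obtain ⟨i, j, hij, h⟩ := Finite.exists_ne_map_eq_of_infinite fun j => run step s (pw z j)
    rcases lt_or_gt_of_ne hij with h1 | h1
    · exact ⟨i, j - i, by omega, by rw [show i + (j - i) = j by omega]; exact h.symm⟩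
    · exact ⟨j, i - j, by omega, by rw [show j + (i - j) = i by omega]; exact h⟩
  have per : ∀ k r, run step s (pw z (a + r + e * k)) = run step s (pw z (a + r)) := by
    intro k r
    induction k with
    | zero => rfl
    | succ k ih =>
      rw [show a + r + e * (k + 1) = (a + e) + (r + e * k) by ring, pw_add, run_append, h,
        ← run_append, ← pw_add, ← add_assoc, ih]
  have f1 : ((fun j => pw z j) '' {j | j < a ∧ run step s (pw z j) = t}).Finite :=
    ((Set.finite_lt_nat a).subset fun _ h => h.1).image _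
  have f2 : {r | r < e ∧ run step s (pw z (a + r)) = t}.Finite :=
    (Set.finite_lt_nat e).subset fun _ h => h.1
  refine ((LV.finite f1).union (LV.biUnion f2 fun r _ =>
    (LV.word (pw z (a + r))).cat ((LV.word (k := 0) (pw z e)).kst (by omega)))).congr fun w => ?_
  simp only [Set.mem_union, Set.mem_iUnion, Set.mem_ofPred_eq, Set.mem_image, P329Z.cat, mem_kst,
    Set.mem_singleton_iff]
  constructor
  · rintro ⟨⟨j, rfl⟩, hj⟩
    rcases lt_or_ge j a with h1 | h1
    · exact Or.inl ⟨j, ⟨h1, hj⟩, rfl⟩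
    · have h2 : j = a + (j - a) % e + e * ((j - a) / e) := by
        have := Nat.mod_add_div (j - a) e; omega
      refine Or.inr ⟨(j - a) % e, ⟨Nat.mod_lt _ he, ?_⟩, _, rfl, _, ⟨(j - a) / e, rfl⟩, ?_⟩
      · rw [← per ((j - a) / e), ← h2, hj]
      · rw [pw_mul, ← pw_add, ← h2]
  · rintro (⟨j, hj, rfl⟩ | ⟨r, hr, _, rfl, _, ⟨k, rfl⟩, rfl⟩)
    · exact ⟨⟨j, rfl⟩, hj.2⟩
    · rw [pw_mul, ← pw_add]
      exact ⟨⟨_, rfl⟩, by rw [per, hr.2]⟩

theorem good_Z0 [Finite α] (B L : ℕ) : Good (Z0 B L : Set (List α)) := by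
  have hs := good_finite (List.finite_length_le α B)
  refine ((hs.cat (good_biUnion (List.finite_length_le α L) fun z _ => good_pw z)).cat hs).congr
    fun w => ?_
  simp only [Z0, P329Z.cat, Set.mem_ofPred_eq, Set.mem_iUnion]
  constructor
  · rintro ⟨a, z, b, j, ha, hz, hb, rfl⟩
    exact ⟨_, ⟨a, ha, _, ⟨z, hz, j, rfl⟩, rfl⟩, b, hb, rfl⟩
  · rintro ⟨_, ⟨a, ha, _, ⟨z, hz, j, rfl⟩, rfl⟩, b, hb, rfl⟩
    exact ⟨a, z, b, j, ha, hz, hb, rfl⟩

theorem good_Zn [Finite α] (B L n : ℕ) : Good (Zn B L n : Set (List α)) := by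
  induction n with
  | zero =>
    refine good_finite ((Set.finite_singleton []).subset ?_)
    rintro _ ⟨l, hl, -, rfl⟩
    rw [List.length_eq_zero_iff.1 (Nat.le_zero.1 hl)]
    rfl
  | succ n ih =>
    refine (ih.union ((good_Z0 B L).cat ih)).congr fun w => ?_
    constructor
    · rintro ⟨l, hl, h, rfl⟩
      cases l with
      | nil => exact Or.inl ⟨[], Nat.zero_le _, h, rfl⟩
      | cons v l => exact Or.inr ⟨v, h v (by simp), _,
          ⟨l, by simpa using hl, fun u hu => h u (by simp [hu]), rfl⟩, rfl⟩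
    · rintro (⟨l, hl, h, rfl⟩ | ⟨v, hv, _, ⟨l, hl, h, rfl⟩, rfl⟩)
      · exact ⟨l, hl.trans n.le_succ, h, rfl⟩
      · exact ⟨v :: l, by simpa using hl, by simpa using ⟨hv, h⟩, rfl⟩

theorem good_cong {B : Type} [Finite B] (beh : List α → B)
    (hb : ∀ u v a, beh u = beh v → beh (u ++ [a]) = beh (v ++ [a])) {Z : Set (List α)}
    (hZ : Good Z) (R : List α → Prop) (hR : ∀ u v, beh u = beh v → R u → R v) :
    LV 1 {u | u ∈ Z ∧ R u} := by
  classical
  let st : B → α → B := fun b a => if h : ∃ u, beh u = b then beh (h.choose ++ [a]) else b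
  have hst : ∀ u p, run st (beh p) u = beh (p ++ u) := by
    intro u
    induction u with
    | nil => simp
    | cons a u ih =>
      intro p
      have h : ∃ u, beh u = beh p := ⟨p, rfl⟩
      have : st (beh p) a = beh (p ++ [a]) := by
        simp only [st, dif_pos h]
        exact hb _ _ a h.choose_spec
      rw [run_cons, this, ih]
      simp
  refine (LV.biUnion (Set.toFinite {b | ∃ u, beh u = b ∧ R u})
    fun b _ => hZ B st (beh []) b).congr fun w => ?_
  simp only [Set.mem_iUnion, Set.mem_ofPred_eq, hst, List.nil_append]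
  exact ⟨fun h => ⟨_, ⟨w, rfl, h.2⟩, h.1, rfl⟩,
    fun ⟨_, ⟨u, h1, h2⟩, h3, h4⟩ => ⟨h3, hR u w (h1.trans h4.symm) h2⟩⟩

variable {step : S → α → S} {ev : S → α → Prop} {Φ : S → X}

theorem key1 (hΦ : Summ step ev Φ) {Z : Set (List α)} (hZ : Good Z) (R : List α → Prop)
    (hR : ∀ u v, (∀ s, (NoEv step ev s u ↔ NoEv step ev s v) ∧
      Φ (run step s u) = Φ (run step s v)) → R u → R v) : LV 1 {u | u ∈ Z ∧ R u} := by
  have : Finite (Set.range Φ) := hΦ.fin
  let beh : List α → Set.range Φ → Prop × Set.range Φ := fun u x =>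
    (NoEv step ev x.2.choose u, ⟨Φ (run step x.2.choose u), _, rfl⟩)
  have h1 : ∀ u v, beh u = beh v ↔ ∀ s, (NoEv step ev s u ↔ NoEv step ev s v) ∧
      Φ (run step s u) = Φ (run step s v) := by
    intro u v
    constructor
    · intro h s
      have h2 := congrFun h ⟨Φ s, s, rfl⟩
      have h3 : Φ (⟨s, rfl⟩ : Φ s ∈ Set.range Φ).choose = Φ s :=
        (⟨s, rfl⟩ : Φ s ∈ Set.range Φ).choose_spec
      have h4 := congrArg Prod.fst h2
      have h5 := congrArg (fun p => p.2.1) h2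
      simp only [beh] at h4 h5
      refine ⟨⟨fun h6 => s_noEv hΦ v h3 (h4 ▸ s_noEv hΦ u h3.symm h6),
        fun h6 => s_noEv hΦ u h3 (h4 ▸ s_noEv hΦ v h3.symm h6)⟩, ?_⟩
      rw [← s_run hΦ u h3, ← s_run hΦ v h3, h5]
    · intro h
      funext x
      exact Prod.ext (propext (h _).1) (Subtype.ext (h _).2)
  refine good_cong beh (fun u v a h => (h1 _ _).2 fun s => ?_) hZ R
    fun u v h => hR u v ((h1 u v).1 h)
  obtain ⟨h2, h3⟩ := (h1 u v).1 h s
  rw [noEv_append, noEv_append, run_append, run_append]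
  exact ⟨⟨fun h4 => ⟨h2.1 h4.1, s_noEv hΦ _ h3 h4.2⟩,
    fun h4 => ⟨h2.2 h4.1, s_noEv hΦ _ h3.symm h4.2⟩⟩, s_run hΦ _ h3⟩

/-- the inner star: the complement is an ordinary expression of height two -/
theorem inner_star [Finite α]
    (hΦ : Summ step ev Φ) (F : Set S) {Z : Set (List α)} (hZ : Good Z) (s₀ : S)
    (fac : ∀ w, NoEv step ev s₀ w → w ∈ Z ∨ ∃ p v, w = p ++ v ∧ p ∈ Z ∧ run step s₀ p ∈ F ∧
      IChain step ev F Z (run step s₀ w) v) (x : X) :
    LV 2 {w | NoEv step ev s₀ w ∧ Φ (run step s₀ w) = x}ᶜ := by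
  let P' : Set (List α) := {p | p ∈ Z ∧ Φ (run step s₀ p) ∈ Φ '' F}
  let K : Set (List α) := {k | k ∈ Z ∧ ∀ s ∈ F, NoEv step ev s k → Φ (run step s k) ∈ Φ '' F}
  let Sf : X → Set (List α) := fun x =>
    {v | v ∈ Z ∧ ∀ s ∈ F, NoEv step ev s v → Φ (run step s v) = x}
  let T : X → Set (List α) := fun x =>
    {w | w ∈ Z ∧ Φ (run step s₀ w) = x} ∪ cat P' (cat (kst K) (Sf x))
  have hT : ∀ x, LV 2 (T x) := fun x =>
    ((key1 hΦ hZ _ fun u v h hu => by rwa [← (h s₀).2]).mono one_le_two).union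
      (((key1 hΦ hZ _ fun u v h hu => by rwa [← (h s₀).2]).mono one_le_two).cat
        (((key1 hΦ hZ _ fun u v h hu s hs hv => by
          rw [← (h s).2]; exact hu s hs ((h s).1.2 hv)).kst (by omega)).cat
        ((key1 hΦ hZ _ fun u v h hu s hs hv => by
          rw [← (h s).2]; exact hu s hs ((h s).1.2 hv)).mono one_le_two)))
  have ha : ∀ w, NoEv step ev s₀ w → w ∈ T (Φ (run step s₀ w)) := by
    intro w hw
    rcases fac w hw with h | ⟨p, v, h1, h2, h3, h4⟩
    · exact Or.inl ⟨h, rfl⟩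
    · refine Or.inr ⟨p, ⟨h2, _, h3, rfl⟩, v, ?_, h1.symm⟩
      clear h1
      induction h4 with
      | last v hv h => exact ⟨[], kst_nil K, v, ⟨hv, fun s hs h' => by rw [h s hs h']⟩, rfl⟩
      | cons k w hk h _ ih =>
        obtain ⟨u, hu, v, hv, rfl⟩ := ih
        exact ⟨k ++ u, kst_cons ⟨hk, fun s hs h' => ⟨_, h s hs h', rfl⟩⟩ hu, v, hv, by simp⟩
  have hb : ∀ x, ∀ w ∈ T x, NoEv step ev s₀ w → Φ (run step s₀ w) = x := by
    rintro x w (h | ⟨p, hp, _, ⟨u, hu, v, hv, rfl⟩, rfl⟩) hw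
    · exact h.2
    · have h1 : ∀ s, Φ s ∈ Φ '' F → NoEv step ev s u → Φ (run step s u) ∈ Φ '' F := by
        refine kst_ind (p := fun u => ∀ s, Φ s ∈ Φ '' F → NoEv step ev s u →
          Φ (run step s u) ∈ Φ '' F) (fun s h _ => h) (fun k u hk ih s hs h => ?_) hu
        obtain ⟨s', h1, h2⟩ := hs
        rw [noEv_append] at h
        rw [run_append]
        exact ih _ (s_run hΦ k h2 ▸ hk.2 s' h1 (s_noEv hΦ k h2.symm h.1)) h.2
      rw [noEv_append, noEv_append] at hw
      obtain ⟨s', h2, h3⟩ := h1 _ hp.2 hw.2.1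
      rw [run_append, run_append, ← s_run hΦ v h3]
      exact hv.2 s' h2 (s_noEv hΦ v h3.symm hw.2.2)
  refine (LV.biUnion hΦ.fin fun y _ => ((hT y).iUnion_prop (p := y ≠ x)).union
    (LV.iUnion fun a : α => LV.iUnion_prop (p := ∃ s, Φ s = y ∧ ev s a)
      ((hT y).cat ((LV.single a).cat (LV.univ.mono one_le_two))))).congr fun w => ?_
  simp only [Set.mem_compl_iff, Set.mem_union, Set.mem_iUnion, Set.mem_ofPred_eq]
  constructor
  · intro h
    by_cases hw : NoEv step ev s₀ w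
    · exact ⟨_, ⟨_, rfl⟩, Or.inl ⟨fun h' => h ⟨hw, h'⟩, ha w hw⟩⟩
    · obtain ⟨u, a, v, rfl, h3, h4⟩ := first_ev w s₀ hw
      exact ⟨_, ⟨_, rfl⟩, Or.inr ⟨a, ⟨_, rfl, h4⟩, u, ha u h3, _, ⟨_, rfl, v, trivial, rfl⟩, rfl⟩⟩
  · rintro ⟨y, -, ⟨h1, h2⟩ | ⟨a, ⟨s, rfl, hs⟩, u, hu, _, ⟨_, rfl, v, -, rfl⟩, rfl⟩⟩ ⟨hw, h3⟩
    · exact h1 ((hb y w h2 hw).symm.trans h3)
    · rw [noEv_append] at hw
      exact hw.2.1 (hΦ.evt _ _ a (hb _ u hu hw.1).symm hs)

/-- the outer star -/
theorem outer_star [Finite α]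
    (hΦ : Summ step ev Φ) (F I : Set S) (hI : I.Finite) {Z : Set (List α)} (hZ : Good Z)
    (h2 : ∀ s ∈ I, ∀ x : X, LV 3 {w | NoEv step ev s w ∧ Φ (run step s w) = x})
    (s₀ : S) (hs₀ : s₀ ∈ I)
    (fac : ∀ w, NoEv step ev s₀ w ∨ ∃ p v, w = p ++ v ∧ NoEv step ev s₀ p ∧ run step s₀ p ∈ F ∧
      OChain step ev F I Z v) (x : X) :
    LV 4 {w | Φ (run step s₀ w) = x} := by
  let Sy : S → Set (List α) := fun t => {b | b ∈ Z ∧ ∀ s ∈ F, Φ (run step s b) = Φ t}
  let Tt : S → X → Set (List α) := fun t y => {w | NoEv step ev t w ∧ Φ (run step t w) = y}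
  let Sf : X → Set (List α) := fun y => ⋃ t ∈ I, cat (Sy t) (Tt t y)
  let K : Set (List α) := ⋃ y ∈ Φ '' F, Sf y
  have hF : (Φ '' F).Finite := hΦ.fin.subset (Set.image_subset_range _ _)
  have h34 : 3 ≤ 4 := by norm_num
  have hSf : ∀ y, LV 3 (Sf y) := fun y => LV.biUnion hI fun t ht =>
    ((key1 hΦ hZ _ fun u v h hu s hs => by rw [← (h s).2]; exact hu s hs).mono (by omega)).cat
      (h2 t ht y)
  have sound : ∀ y, ∀ k ∈ Sf y, ∀ s, Φ s ∈ Φ '' F → Φ (run step s k) = y := by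
    intro y k hk s ⟨s', h3, h4⟩
    simp only [Sf, Set.mem_iUnion] at hk
    obtain ⟨t, -, b, hb, m, hm, rfl⟩ := hk
    rw [run_append, s_run hΦ m ((s_run hΦ b h4).symm.trans (hb.2 s' h3)), hm.2]
  have piece : ∀ b m t, b ∈ Z → t ∈ I → (∀ s ∈ F, run step s b = t) → NoEv step ev t m →
      b ++ m ∈ Sf (Φ (run step t m)) := fun b m t hb ht h hm => by
    simp only [Sf, Set.mem_iUnion]
    exact ⟨t, ht, b, ⟨hb, fun s hs => by rw [h s hs]⟩, m, ⟨hm, rfl⟩, rfl⟩
  refine (((h2 s₀ hs₀ x).mono h34).union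
    (((LV.biUnion hF fun y _ => h2 s₀ hs₀ y).mono h34).cat
      (((LV.biUnion hF fun y _ => hSf y).kst (by omega)).cat ((hSf x).mono h34)))).congr
    fun w => ?_
  constructor
  · rintro rfl
    rcases fac w with h | ⟨p, v, rfl, h3, h4, h5⟩
    · exact Or.inl ⟨h, rfl⟩
    · refine Or.inr ⟨p, Set.mem_biUnion (x := Φ (run step s₀ p)) ⟨_, h4, rfl⟩ ⟨h3, rfl⟩, v, ?_, rfl⟩
      rw [run_append]
      have h6 : Φ (run step s₀ p) ∈ Φ '' F := ⟨_, h4, rfl⟩
      generalize run step s₀ p = s at h6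
      induction h5 generalizing s with
      | last b m t hb ht h hm =>
        have := piece b m t hb ht h hm
        exact ⟨[], kst_nil _, _, by rwa [sound _ _ this s h6], rfl⟩
      | cons b m w t hb ht h hm hF' _ ih =>
        have := piece b m t hb ht h hm
        obtain ⟨u, hu, v, hv, rfl⟩ := ih (run step s (b ++ m))
          (by rw [sound _ _ this s h6]; exact ⟨_, hF', rfl⟩)
        exact ⟨b ++ m ++ u, kst_cons (Set.mem_biUnion (x := Φ (run step t m)) ⟨_, hF', rfl⟩ this)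
          hu, v, by rwa [run_append], by simp⟩
  · rintro (h | ⟨p, hp, _, ⟨u, hu, v, hv, rfl⟩, rfl⟩)
    · exact h.2
    · simp only [Set.mem_iUnion] at hp
      obtain ⟨y, hy, -, rfl⟩ := hp
      have h1 : ∀ s, Φ s ∈ Φ '' F → Φ (run step s u) ∈ Φ '' F := by
        refine kst_ind (p := fun u => ∀ s, Φ s ∈ Φ '' F → Φ (run step s u) ∈ Φ '' F)
          (fun s h => h) (fun k u hk ih s hs => ?_) hu
        simp only [Set.mem_iUnion] at hk
        obtain ⟨y, hy, hk⟩ := hk
        rw [run_append]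
        exact ih _ (by rwa [sound y k hk s hs])
      show Φ (run step s₀ (p ++ (u ++ v))) = x
      rw [run_append, run_append]
      exact sound x v hv _ (h1 _ hy)

/-- a language which is determined by two finite observations -/
theorem determined {X₁ X₂ : Type} {k l : ℕ} (hkl : k = 2 ∧ l = 3 ∨ k = 4 ∧ l = 5)
    (Q L : List α → Prop) (f₁ : List α → X₁)
    (f₂ : List α → X₂) (h₁ : (Set.range f₁).Finite) (h₂ : (Set.range f₂).Finite)
    (s₁ : ∀ x, LV k {w | Q w ∧ f₁ w = x}ᶜ) (s₂ : ∀ x, LV k {w | Q w ∧ f₂ w = x}ᶜ)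
    (hL : ∀ w w', Q w → Q w' → f₁ w = f₁ w' → f₂ w = f₂ w' → L w → L w') :
    LV l {w | Q w ∧ L w} := by
  have hf : ((fun w => (f₁ w, f₂ w)) '' {w | Q w ∧ L w}).Finite :=
    (h₁.prod h₂).subset (by rintro _ ⟨w, -, rfl⟩; exact ⟨⟨w, rfl⟩, ⟨w, rfl⟩⟩)
  refine (LV.biUnion hf fun x _ => ((s₁ x.1).union (s₂ x.2)).compl hkl).congr fun w => ?_
  simp only [Set.mem_iUnion, Set.compl_union, compl_compl, Set.mem_ofPred_eq, Set.mem_inter_iff]
  constructor
  · exact fun h => ⟨_, ⟨w, h, rfl⟩, ⟨h.1, rfl⟩, h.1, rfl⟩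
  · rintro ⟨_, ⟨v, hv, rfl⟩, h3, h4⟩
    exact ⟨h3.1, hL v w hv.1 h3.1 h3.2.symm h4.2.symm hv.2⟩

theorem level_three {V : Type} [AddCommGroup V] [Inhabited V] {K : ℕ}
    {D : Dt α V (SI (V → V) (V →₀ ZMod 2) K × Bool)} (hK : 0 < K)
    (f : (Fin K → (V → V)) → (V →₀ ZMod 2)) [Finite α] [Finite V] (hD : D.Ok)
    (hε : ∀ s b, D.ε (s, b) = if b then 1 else -1)
    (hf : ∀ a y, ∃ k, Srv (hI K) k a y f) {B L : ℕ}
    (hZ : ∀ g, Pre D.N D.Um D.θ g → g ∈ (Z0 B L : Set (List α))) (x : V)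
    (o : (List α × (Fin (D.Θ + 1) → V → V) × ZMod D.q × List α) × V) :
    LV 3 {w | NoEv D.stepE (D.ev V) ([], x) w ∧
      (D.phi (run D.stepE ([], x) w).1, (run D.stepE ([], x) w).2) = o} := by
  have : Finite {l : List (V → V) // l.length < K} := finite_short
  have : Finite (V →₀ ZMod 2) := Finite.of_equiv _ Finsupp.equivFunOnFinite.symm
  have hS := Dt.summ hD (σ := SI (V → V) (V →₀ ZMod 2) K) (upd hK (hI K) f)
  have key : ∀ (y : V →₀ ZMod 2) o', LV 2 {w | NoEv D.stepE (D.ev V) ([], x) w ∧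
      (D.phi (run (D.stepI hK (hI K) f) ([], st0 hK y) w).1,
        (run (D.stepI hK (hI K) f) ([], st0 hK y) w).2) = o'}ᶜ := by
    intro y o'
    have h1 := inner_star hS D.FI (good_Zn B L (3 * K + 1)) ([], st0 hK y) (by
      intro w _
      obtain ⟨Gs, g, rfl, h2, h3⟩ := decomp (N := D.N) (U := D.Um) hD.θpos w
      rcases Dt.inner_fac hK (hI K) f hD hε hf hZ h3 _ Gs le_rfl h2 y with h4 | ⟨p, v, h4, h5, h6, h7⟩
      · exact Or.inl (Zn.mono (by omega) h4)
      · exact Or.inr ⟨p, v, h4, Zn.mono (by omega) h5, h6, h7⟩) o'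
    refine h1.congr fun w => not_congr (and_congr_left fun _ => ?_)
    exact noEv_fst (s := ([], x)) (s' := ([], st0 hK y)) rfl w
  have fin : ∀ y : V →₀ ZMod 2, (Set.range fun w =>
      (D.phi (run (D.stepI hK (hI K) f) ([], st0 hK y) w).1,
        (run (D.stepI hK (hI K) f) ([], st0 hK y) w).2)).Finite := by
    intro y
    refine hS.fin.subset ?_
    rintro _ ⟨w, rfl⟩
    exact ⟨_, rfl⟩
  refine determined (by omega) _ _ _ _ (fin (Finsupp.single x 1)) (fin 0) (key _) (key _) ?_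
  intro w w' _ _ h1 h2 h3
  have r0 : Rel (K := K) (([], x) : List α × V) ([], st0 hK (Finsupp.single x 1)) ([], st0 hK 0) :=
    ⟨rfl, rfl, rfl, x, sub_zero _, rfl⟩
  obtain ⟨a1, _, _, x₁, a4, a5⟩ := r0.run (D := D) hK f w
  obtain ⟨b1, _, _, x₂, b4, b5⟩ := r0.run (D := D) hK f w'
  obtain ⟨c1, c2⟩ := Prod.mk.inj h1
  obtain ⟨_, c4⟩ := Prod.mk.inj h2
  rw [c2, c4, b4] at a4
  rw [← h3, a1, b1, a5, b5, c1, c2, Finsupp.single_left_injective one_ne_zero a4]

theorem level_linear {V : Type} [Finite α] [Finite V] [AddCommGroup V] (M : α → V →+ V)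
    (x : V) (F : Set V) : LV 5 {w | act M w x ∈ F} := by
  classical
  have : Inhabited V := ⟨0⟩
  have : Fintype V := Fintype.ofFinite V
  have : Finite (V →₀ ZMod 2) := Finite.of_equiv _ Finsupp.equivFunOnFinite.symm
  have : Fintype (V →₀ ZMod 2) := Fintype.ofFinite _
  obtain ⟨KE, hKE, hE⟩ := lines V (V → V)
  obtain ⟨fE, hfE⟩ := hE (hh KE)
  obtain ⟨K, hK, hIn⟩ := lines (V →₀ ZMod 2) (V → V)
  obtain ⟨f, hf⟩ := hIn (hI K)
  have : Finite {l : List (V → V) // l.length < K} := finite_short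
  obtain ⟨S, hS⟩ := exists_offsets KE ((Fin KE → (V → V)) × V)
  obtain ⟨q, U, z, X, hsp⟩ := exists_split (SI (V → V) (V →₀ ZMod 2) K × Bool) S
    (fun ρ => if ρ.2 then 1 else -1) (fun ρ => by split_ifs <;> simp)
  obtain ⟨t, p, t0, tmono, tl, tr, tle, ple, sid⟩ := hS U
  obtain ⟨N, L, B, Um, hN, hsparse, hZ0⟩ := exists_marks α (3 * q * (q + 3))
  let D : Dt α V (SI (V → V) (V →₀ ZMod 2) K × Bool) :=
    ⟨M, KE, fE, N, Um, q, U, S, t, p, fun ρ => if ρ.2 then 1 else -1, z, X⟩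
  have hD : D.Ok := ⟨hKE, hN, hfE, hsparse, hsp, fun ρ => by
    show (if ρ.2 then (1 : ℤ) else -1) = 1 ∨ (if ρ.2 then (1 : ℤ) else -1) = -1
    split_ifs <;> simp, t0, tmono, tl, tr, tle, ple, sid⟩
  have hZ : ∀ g, Pre D.N D.Um D.θ g → g ∈ (Z0 (B + D.θ + 1) L : Set (List α)) :=
    fun g hg => pre_Z0 hZ0 hg
  have hSE := Dt.summ hD (σ := V) (fun H y => H y)
  have hfin : ({s | s.1 = []} : Set (List α × V)).Finite := by
    refine (Set.finite_range (fun y : V => (([], y) : List α × V))).subset ?_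
    rintro ⟨g, y⟩ hs
    exact ⟨y, by rw [show g = [] from hs]⟩
  have fin : ∀ y : V, (Set.range fun w =>
      (D.phi (run D.stepE ([], y) w).1, (run D.stepE ([], y) w).2)).Finite := by
    intro y
    refine hSE.fin.subset ?_
    rintro _ ⟨w, rfl⟩
    exact ⟨_, rfl⟩
  have key : ∀ (y : V) o, LV 4 {w | True ∧
      (D.phi (run D.stepE ([], y) w).1, (run D.stepE ([], y) w).2) = o}ᶜ := by
    intro y o
    have h1 := outer_star hSE D.FE {s | s.1 = []} hfin (good_Zn (α := α) (B + D.θ + 1) L 1)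
      (by
        rintro ⟨g, y'⟩ hs o'
        have hg : g = [] := hs
        subst hg
        exact level_three hK f hD (fun _ _ => rfl) hf hZ y' o') ([], y) rfl (by
        intro w
        obtain ⟨Gs, g, rfl, h2, h3⟩ := decomp (N := D.N) (U := D.Um) hD.θpos w
        exact Dt.outer_fac hD (fun g hg => Zn.one (hZ g hg)) Gs h2 h3 y)
    refine (LV.biUnion (fin y) fun o' _ => (h1 o').iUnion_prop (p := o' ≠ o)).congr fun w => ?_
    simp only [Set.mem_compl_iff, Set.mem_iUnion, Set.mem_ofPred_eq, true_and]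
    exact ⟨fun h => ⟨_, ⟨w, rfl⟩, h, rfl⟩, fun ⟨_, _, h, h'⟩ h'' => h (h'.symm.trans h'')⟩
  have h := determined (l := 5) (by omega) (fun _ => True) (fun w => act M w x ∈ F) _ _ (fin x)
    (fin 0) (key x) (key 0) (by
      intro w w' _ _ h1 h2 h3
      obtain ⟨c1, c2⟩ := Prod.mk.inj h1
      obtain ⟨_, c4⟩ := Prod.mk.inj h2
      have a := (run_diff D x w).2
      have b := (run_diff D x w').2
      rw [Dt.phi_act c1, c2, c4, b] at a
      have a' : act M w' x = act M w x := a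
      rw [a']
      exact h3)
  exact h.congr fun w => ⟨fun h => ⟨trivial, h⟩, fun h => h.2⟩

theorem level_regular [Finite α] (L : Language α) (hL : L.IsRegular) : LV 5 L := by
  obtain ⟨σ, _, A, rfl⟩ := hL
  have : Finite (σ →₀ ZMod 2) := Finite.of_equiv _ Finsupp.equivFunOnFinite.symm
  have h := level_linear (α := α) (V := σ →₀ ZMod 2)
    (fun a => Finsupp.mapDomain.addMonoidHom (fun s => A.step s a)) (Finsupp.single A.start 1)
    {v | ∃ s ∈ A.accept, v = Finsupp.single s 1}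
  have e : ∀ (w : List α) (s : σ), act (V := σ →₀ ZMod 2)
      (fun a => Finsupp.mapDomain.addMonoidHom (fun s => A.step s a)) w (Finsupp.single s 1) =
        Finsupp.single (A.evalFrom s w) 1 := by
    intro w
    induction w with
    | nil => intro s; rfl
    | cons a w ih =>
      intro s
      show act _ w (Finsupp.mapDomain (fun s => A.step s a) (Finsupp.single s 1)) = _
      rw [Finsupp.mapDomain_single, ih]
      rfl
  refine h.congr fun w => ?_
  show A.evalFrom A.start w ∈ A.accept ↔ ∃ s ∈ A.accept, _ = Finsupp.single s 1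
  rw [e]
  constructor
  · intro h1
    exact ⟨_, h1, rfl⟩
  · rintro ⟨s, h1, h2⟩
    rw [Finsupp.single_left_injective one_ne_zero h2]
    exact h1

end Vale.Agent.N329.Nf
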