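import Vale.Agent.N329.NfForm
import Vale.Agent.N329.Inst
import Mathlib.Computability.MyhillNerode

/-! # A bound for the number of states, and the bounds for `H` -/

namespace Vale.Agent.N329.Nf

open Vale.Agent.P329Z Vale.Agent.P329Z.Ht

variable {α : Type}

/-- a colouring with at most `N` colours refines the Nerode congruence -/
def Rec (N : ℕ) (L : Set (List α)) : Prop :=
  ∃ (σ : Type) (_ : Finite σ) (g : List α → σ), Nat.card σ ≤ N ∧
    ∀ u v, g u = g v → ∀ w, u ++ w ∈ L → v ++ w ∈ L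

/-- a bound for the number of states of an automaton for the expression -/
def Ex.bnd : Ex α → ℕ
  | .zero => 1
  | .one => 2
  | .letter _ => 4
  | .add e f => e.bnd * f.bnd
  | .mul e f => e.bnd * 2 ^ f.bnd
  | .compl e => e.bnd
  | .star e => 2 * 2 ^ e.bnd

theorem card_prop : Nat.card Prop = 2 := by simp

theorem card_set {σ : Type} [Finite σ] {N : ℕ} (h : Nat.card σ ≤ N) :
    Nat.card (σ → Prop) ≤ 2 ^ N := by
  rw [Nat.card_fun, card_prop]
  exact Nat.pow_le_pow_right two_pos h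

theorem kst_cut {K : Set (List α)} {x : List α} (hx : x ∈ kst K) : x ∈ kst K ∧ ∀ u w, u ++ w = x →
    (u ∈ kst K ∧ w = []) ∨ ∃ u₁ ∈ kst K, ∃ u₂ w₁, ∃ w₂ ∈ kst K,
      u = u₁ ++ u₂ ∧ w = w₁ ++ w₂ ∧ u₂ ++ w₁ ∈ K := by
  refine kst_ind (p := fun x => x ∈ kst K ∧ ∀ u w, u ++ w = x → (u ∈ kst K ∧ w = []) ∨
    ∃ u₁ ∈ kst K, ∃ u₂ w₁, ∃ w₂ ∈ kst K, u = u₁ ++ u₂ ∧ w = w₁ ++ w₂ ∧ u₂ ++ w₁ ∈ K)
    ⟨kst_nil _, fun u w h => ?_⟩ (fun k y hk ih => ⟨kst_cons hk ih.1, fun u w h => ?_⟩) hx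
  · obtain ⟨rfl, rfl⟩ := List.append_eq_nil_iff.1 h
    exact Or.inl ⟨kst_nil _, rfl⟩
  · rcases List.append_eq_append_iff.1 h with ⟨a, rfl, rfl⟩ | ⟨c, rfl, h1⟩
    · exact Or.inr ⟨[], kst_nil _, u, a, y, ih.1, rfl, rfl, hk⟩
    · rcases ih.2 c w h1.symm with h2 | ⟨u₁, h2, u₂, w₁, w₂, h3, rfl, h4, h5⟩
      · exact Or.inl ⟨kst_cons hk h2.1, h2.2⟩
      · exact Or.inr ⟨k ++ u₁, kst_cons hk h2, u₂, w₁, w₂, h3, by simp, h4, h5⟩

theorem kst_append {K : Set (List α)} {x y : List α} (hx : x ∈ kst K) (hy : y ∈ kst K) :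
    x ++ y ∈ kst K :=
  kst_ind (p := fun x => x ++ y ∈ kst K) hy
    (fun _ _ hk h => by rw [List.append_assoc]; exact kst_cons hk h) hx

theorem Ex.rec_bnd (e : Ex α) : Rec e.bnd e.lang := by
  induction e with
  | zero => exact ⟨Unit, inferInstance, fun _ => (), by simp [Ex.bnd], fun _ _ _ _ h => h⟩
  | one =>
    refine ⟨Prop, inferInstance, (· = []), card_prop.le, fun u v h w hw => ?_⟩
    obtain ⟨rfl, rfl⟩ := List.append_eq_nil_iff.1 hw
    exact List.append_eq_nil_iff.2 ⟨h.mp rfl, rfl⟩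
  | letter a =>
    refine ⟨Prop × Prop, inferInstance, fun u => (u = [], u = [a]),
      by rw [Nat.card_prod, card_prop]; rfl, fun u v h w hw => ?_⟩
    obtain ⟨h1, h2⟩ := Prod.mk.inj h
    rcases List.append_eq_singleton_iff.1 hw with ⟨h3, h4⟩ | ⟨h3, h4⟩
    · exact List.append_eq_singleton_iff.2 (Or.inl ⟨h1 ▸ h3, h4⟩)
    · exact List.append_eq_singleton_iff.2 (Or.inr ⟨h2 ▸ h3, h4⟩)
  | add e f h1 h2 =>
    obtain ⟨σ, _, g, a1, a2⟩ := h1
    obtain ⟨τ, _, g', b1, b2⟩ := h2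
    exact ⟨σ × τ, inferInstance, fun u => (g u, g' u), by
      rw [Nat.card_prod]; exact Nat.mul_le_mul a1 b1, fun u v h w hw =>
      Or.imp (a2 u v (Prod.mk.inj h).1 w) (b2 u v (Prod.mk.inj h).2 w) hw⟩
  | mul e f h1 h2 =>
    obtain ⟨σ, _, g, a1, a2⟩ := h1
    obtain ⟨τ, _, g', b1, b2⟩ := h2
    refine ⟨σ × (τ → Prop), inferInstance,
      fun u => (g u, fun t => ∃ u₁ ∈ e.lang, ∃ u₂, u = u₁ ++ u₂ ∧ g' u₂ = t), by
      rw [Nat.card_prod]; exact Nat.mul_le_mul a1 (card_set b1), ?_⟩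
    rintro u v h w ⟨a, ha, b, hb, hw⟩
    obtain ⟨h1, h2⟩ := Prod.mk.inj h
    rcases List.append_eq_append_iff.1 hw with ⟨c, rfl, rfl⟩ | ⟨c, rfl, rfl⟩
    · obtain ⟨v₁, h3, v₂, rfl, h4⟩ := (congrFun h2 (g' c)).mp ⟨a, ha, c, rfl, rfl⟩
      exact ⟨v₁, h3, _, b2 c v₂ h4.symm w hb, by simp⟩
    · exact ⟨_, a2 u v h1 c ha, b, hb, by simp⟩
  | compl e h =>
    obtain ⟨σ, _, g, a1, a2⟩ := h
    exact ⟨σ, inferInstance, g, a1, fun u v h w hw h' => hw (a2 v u h.symm w h')⟩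
  | star e h =>
    obtain ⟨τ, _, g, b1, b2⟩ := h
    refine ⟨Prop × (τ → Prop), inferInstance, fun u => (u ∈ kst e.lang,
      fun t => ∃ u₁ ∈ kst e.lang, ∃ u₂, u = u₁ ++ u₂ ∧ g u₂ = t), by
      rw [Nat.card_prod, card_prop]; exact Nat.mul_le_mul le_rfl (card_set b1), ?_⟩
    intro u v h w hw
    obtain ⟨h1, h2⟩ := Prod.mk.inj h
    simp only [Ex.lang, kstar_eq] at hw ⊢
    rcases (kst_cut hw).2 u w rfl with ⟨h3, rfl⟩ | ⟨u₁, h3, u₂, w₁, w₂, h4, rfl, rfl, h5⟩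
    · rw [List.append_nil]
      exact h1.mp h3
    · obtain ⟨v₁, h6, v₂, rfl, h7⟩ := (congrFun h2 (g u₂)).mp ⟨u₁, h3, u₂, rfl, rfl⟩
      have := kst_append h6 (kst_cons (b2 u₂ v₂ h7.symm w₁ h5) h4)
      simpa using this

theorem Rec.regular {N : ℕ} {L : Language α} (h : Rec N L) : L.IsRegular := by
  obtain ⟨σ, _, g, -, h⟩ := h
  refine .of_finite_range_leftQuotient ((Set.finite_range fun s : σ =>
    ({w | ∃ u, g u = s ∧ u ++ w ∈ L} : Language α)).subset ?_)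
  rintro _ ⟨u, rfl⟩
  exact ⟨g u, Set.ext fun w => ⟨fun ⟨v, h1, h2⟩ => h v u h1 w h2, fun h1 => ⟨u, rfl, h1⟩⟩⟩

theorem Rec.eq {N M : ℕ} {L L' : Set (List α)} (h : Rec N L) (h' : Rec M L')
    (hw : ∀ w : List α, w.length < N * M → (w ∈ L ↔ w ∈ L')) : L = L' := by
  obtain ⟨σ, _, g, a1, a2⟩ := h
  obtain ⟨τ, _, g', b1, b2⟩ := h'
  ext w
  induction hn : w.length using Nat.strong_induction_on generalizing w with
  | _ n ih =>
    by_cases c : w.length < N * M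
    · exact hw w c
    have key : ∀ i j : ℕ, i < j → j ≤ w.length → (g (w.take i), g' (w.take i)) =
        (g (w.take j), g' (w.take j)) → (w ∈ L ↔ w ∈ L') := fun i j h1 h2 h3 => by
      obtain ⟨h4, h5⟩ := Prod.mk.inj h3
      have := ih _ (by simp only [List.length_append, List.length_take, List.length_drop]; omega)
        (w.take i ++ w.drop j) rfl
      rw [← List.take_append_drop j w]
      exact ⟨fun h => b2 _ _ h5 _ (this.1 (a2 _ _ h4.symm _ h)),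
        fun h => a2 _ _ h4 _ (this.2 (b2 _ _ h5.symm _ h))⟩
    by_contra h0
    have h1 : Function.Injective fun i : Fin (w.length + 1) => (g (w.take i), g' (w.take i)) := by
      intro i j h
      by_contra h2
      rcases lt_or_gt_of_ne h2 with h3 | h3
      · exact h0 (key i j h3 (by omega) h)
      · exact h0 (key j i h3 (by omega) h.symm)
    have h2 := Nat.card_le_card_of_injective _ h1
    rw [Nat.card_prod, Nat.card_eq_fintype_card, Fintype.card_fin] at h2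
    have := Nat.mul_le_mul a1 b1
    omega

theorem regular_iff [Finite α] (L : Language α) :
    L.IsRegular ↔ ∃ e : Ex α, e.height ≤ 3 ∧ e.Normal ∧ e.lang = L :=
  ⟨fun h => (level_regular L h).imp fun _ he => ⟨(Ex.normal he.1).1, (Ex.normal he.1).2, he.2⟩,
    fun ⟨e, _, _, h⟩ => h ▸ e.rec_bnd.regular⟩

theorem Ex.gre (e : Ex α) : ∃ e' : P329.GRE α, e'.height = e.height ∧ e'.lang = e.lang := by
  induction e with
  | zero => exact ⟨.zero, rfl, rfl⟩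
  | one => exact ⟨.one, rfl, rfl⟩
  | letter a => exact ⟨.letter a, rfl, rfl⟩
  | add e f h1 h2 =>
    obtain ⟨e', a, b⟩ := h1
    obtain ⟨f', c, d⟩ := h2
    exact ⟨.union e' f', congrArg₂ max a c, congrArg₂ (· ∪ ·) b d⟩
  | mul e f h1 h2 =>
    obtain ⟨e', a, b⟩ := h1
    obtain ⟨f', c, d⟩ := h2
    exact ⟨.concat e' f', congrArg₂ max a c, congrArg₂ cat b d⟩
  | compl e h =>
    obtain ⟨e', a, b⟩ := h
    exact ⟨.compl e', a, congrArg (·ᶜ) b⟩
  | star e h =>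
    obtain ⟨e', a, b⟩ := h
    exact ⟨.star e', congrArg (· + 1) a, (congrArg kst b).trans (kstar_eq _).symm⟩

theorem H_bounds : 1 ≤ H ∧ H ≤ 3 := by
  refine ⟨one_le_H.trans (iSup_mono fun α => iSup_mono fun _ => iSup_mono fun L =>
    iSup_mono fun _ => le_iInf₂ fun e he => ?_),
    iSup_le fun α => iSup_le fun _ => iSup_le fun L => iSup_le fun hL => ?_⟩
  · obtain ⟨e', a, b⟩ := e.gre
    exact iInf_le_of_le e' (iInf_le_of_le (b.trans he) (a ▸ le_rfl))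
  · obtain ⟨e, he, -, h⟩ := (regular_iff L).1 hL
    exact iInf_le_of_le e (iInf_le_of_le h (by exact_mod_cast he))

end Vale.Agent.N329.Nf
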