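import Vale.Agent.N329.Inst
import Mathlib.Order.Filter.Ultrafilter.Basic
import Mathlib.Order.Filter.Cofinite

set_option linter.all false

/-!
Infinite words.
-/

namespace Vale.Agent.N329

open Vale.Agent.P329 Vale.Agent.P329Z Filter

variable {α σ : Type}

/-- the factor of length `n` at position `i` -/
def seg (x : ℕ → α) (i n : ℕ) : List α := (List.range n).map fun t => x (i + t)

theorem seg_succ (x : ℕ → α) (i n : ℕ) : seg x i (n + 1) = seg x i n ++ [x (i + n)] := by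
  simp [seg, List.range_succ]

theorem seg_add (x : ℕ → α) (i m n : ℕ) : seg x i (m + n) = seg x i m ++ seg x (i + m) n := by
  induction n with
  | zero => simp [seg]
  | succ n ih => rw [← add_assoc, seg_succ, ih, seg_succ, List.append_assoc, add_assoc]

theorem seg_zero (x : ℕ → α) (n : ℕ) : (List.range n).map x = seg x 0 n := by simp [seg]

theorem seg_shift (x : ℕ → α) (m i n : ℕ) : seg (fun t => x (m + t)) i n = seg x (m + i) n := by
  simp [seg, add_assoc]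

/-- height at most `k` for sets of infinite words -/
def OH (k : ℕ) (L : Set (ℕ → α)) : Prop := ∃ e : ORE α, e.height ≤ k ∧ e.lang = L

namespace OH

variable {k : ℕ} {A B : Set (ℕ → α)}

theorem empty : OH k (∅ : Set (ℕ → α)) := ⟨.zero, Nat.zero_le _, rfl⟩

theorem congr (hA : OH k A) (h : ∀ x, x ∈ B ↔ x ∈ A) : OH k B := by
  rw [show B = A from Set.ext h]; exact hA

theorem compl (hA : OH k A) : OH k Aᶜ := by
  obtain ⟨e, he, rfl⟩ := hA
  exact ⟨.compl e, he, rfl⟩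

theorem union (hA : OH k A) (hB : OH k B) : OH k (A ∪ B) := by
  obtain ⟨e, he, rfl⟩ := hA
  obtain ⟨f, hf, rfl⟩ := hB
  exact ⟨.union e f, max_le he hf, rfl⟩

theorem pre {U : Set (List α)} (hU : SH k U) (hA : OH k A) :
    OH k {x | ∃ n, seg x 0 n ∈ U ∧ (fun t => x (n + t)) ∈ A} := by
  obtain ⟨e, he, rfl⟩ := hU
  obtain ⟨f, hf, rfl⟩ := hA
  exact ⟨.pre e f, max_le he hf, by simp only [ORE.lang, seg_zero]⟩

theorem biUnion {ι : Type} {s : Set ι} (hs : s.Finite) {L : ι → Set (ℕ → α)}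
    (h : ∀ i ∈ s, OH k (L i)) : OH k (⋃ i ∈ s, L i) := by
  induction s, hs using Set.Finite.induction_on with
  | empty => simpa using empty
  | insert _ _ ih =>
    rw [Set.biUnion_insert]
    exact (h _ (Set.mem_insert _ _)).union (ih fun i hi => h i (Set.mem_insert_of_mem _ hi))

end OH

section limit

variable {S : Type} [Finite S] (step : S → α → S) (s₀ : S)

/-- positions which are reached in the state `e` and merge with the beginning -/
def Mrg (e : S) (y : ℕ → α) (k : ℕ) : Prop :=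
  run step s₀ (seg y 0 k) = e ∧ ∃ m, run step s₀ (seg y k m) = run step e (seg y k m)

theorem oh_mrg {k : ℕ} (hS : ∀ s t, SH k {v | run step s v = t}) (e : S) :
    OH k {y : ℕ → α | ∀ n, ∃ j, n ≤ j ∧ Mrg step s₀ e y j} := by
  have h1 : SH k {v | run step s₀ v = run step e v} :=
    (SH.iUnion fun b => (hS s₀ b).inter (hS e b)).congr fun w => by
      simp only [Set.mem_iUnion, Set.mem_setOf_eq, Set.mem_inter_iff]
      exact ⟨fun h => ⟨_, h, rfl⟩, fun ⟨b, h1, h2⟩ => h1.trans h2.symm⟩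
  have h2 := OH.pre h1 OH.empty.compl
  refine (OH.biUnion (Set.finite_univ (α := S)) fun t _ =>
    OH.pre (hS s₀ t) (OH.pre (hS t e) h2).compl).compl.congr fun y => ?_
  simp only [Set.mem_compl_iff, Set.mem_iUnion, Set.mem_setOf_eq, Set.mem_univ, not_exists,
    Set.mem_empty_iff_false, not_false_eq_true, and_true, seg_shift, add_zero, not_and,
    not_forall, not_not, Mrg, true_implies]
  constructor
  · rintro h _ n rfl
    obtain ⟨j, hj, h3, m, h4⟩ := h n
    obtain ⟨i, rfl⟩ := Nat.exists_eq_add_of_le hj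
    rw [seg_add, run_append, zero_add] at h3
    refine ⟨i, h3, m, ?_⟩
    simpa only [seg, add_assoc, zero_add] using h4
  · intro h n
    obtain ⟨i, h3, m, h4⟩ := h _ n rfl
    refine ⟨n + i, Nat.le_add_right _ _, by rw [seg_add, run_append, zero_add, h3], m, ?_⟩
    simpa only [seg, add_assoc, zero_add] using h4

end limit

section nfa

variable (A : NFA α σ)

/-- paths, and paths through an accepting state -/
def bstep (b : (σ → σ → Prop) × (σ → σ → Prop)) (a : α) : (σ → σ → Prop) × (σ → σ → Prop) :=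
  (fun p q => ∃ m, b.1 p m ∧ q ∈ A.step m a,
    fun p q => ∃ m, q ∈ A.step m a ∧ (b.2 p m ∨ (b.1 p m ∧ q ∈ A.accept)))

/-- the empty path -/
def b0 (σ : Type) : (σ → σ → Prop) × (σ → σ → Prop) := (fun p q => p = q, fun _ _ => False)

/-- the behaviour of a factor -/
def bh (x : ℕ → α) (i n : ℕ) : (σ → σ → Prop) × (σ → σ → Prop) :=
  run (bstep A) (b0 σ) (seg x i n)

theorem bh_succ (x : ℕ → α) (i n : ℕ) : bh A x i (n + 1) = bstep A (bh A x i n) (x (i + n)) := by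
  rw [bh, seg_succ, run_append]; rfl

theorem bh_sound {x : ℕ → α} {r : ℕ → σ} (hr : ∀ t, r (t + 1) ∈ A.step (r t) (x t)) (i n : ℕ) :
    (bh A x i n).1 (r i) (r (i + n)) ∧
      ((∃ t, i < t ∧ t ≤ i + n ∧ r t ∈ A.accept) → (bh A x i n).2 (r i) (r (i + n))) := by
  induction n with
  | zero => exact ⟨rfl, fun ⟨t, h1, h2, _⟩ => by omega⟩
  | succ n ih =>
    rw [bh_succ]
    refine ⟨⟨_, ih.1, hr _⟩, fun ⟨t, h1, h2, h3⟩ => ⟨_, hr _, ?_⟩⟩
    by_cases h4 : t ≤ i + n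
    · exact Or.inl (ih.2 ⟨t, h1, h4, h3⟩)
    · exact Or.inr ⟨ih.1, by rwa [show i + (n + 1) = t by omega]⟩

/-- a run up to the time `k` -/
def Upto (x : ℕ → α) (R : ℕ → σ) (k : ℕ) : Prop := ∀ t < k, R (t + 1) ∈ A.step (R t) (x t)

theorem Upto.snoc {x : ℕ → α} {R : ℕ → σ} {k : ℕ} (h : Upto A x R k) {q : σ}
    (hq : q ∈ A.step (R k) (x k)) :
    ∃ R', Upto A x R' (k + 1) ∧ R' (k + 1) = q ∧ ∀ t ≤ k, R' t = R t := by
  refine ⟨fun t => if t ≤ k then R t else q, fun t ht => ?_, if_neg (by omega),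
    fun t ht => if_pos ht⟩
  dsimp only
  rw [if_pos (show t ≤ k by omega)]
  split_ifs with h1
  · exact h t h1
  · rwa [show t = k by omega]

theorem bh_complete {x : ℕ → α} {R : ℕ → σ} {i : ℕ} (h : Upto A x R i) (n : ℕ) (q : σ) :
    ((bh A x i n).1 (R i) q → ∃ R', Upto A x R' (i + n) ∧ R' (i + n) = q ∧ ∀ t ≤ i, R' t = R t) ∧
    ((bh A x i n).2 (R i) q → ∃ R', Upto A x R' (i + n) ∧ R' (i + n) = q ∧ (∀ t ≤ i, R' t = R t) ∧
      ∃ t, i < t ∧ t ≤ i + n ∧ R' t ∈ A.accept) := by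
  induction n generalizing q with
  | zero => exact ⟨fun h1 => ⟨R, h, h1, fun _ _ => rfl⟩, fun h1 => h1.elim⟩
  | succ n ih =>
    rw [bh_succ]
    constructor
    · rintro ⟨m, h1, h2⟩
      obtain ⟨R₁, a1, rfl, a3⟩ := (ih m).1 h1
      obtain ⟨R₂, b1, b2, b3⟩ := a1.snoc A h2
      exact ⟨R₂, b1, b2, fun t ht => (b3 t (by omega)).trans (a3 t ht)⟩
    · rintro ⟨m, h2, h1 | ⟨h1, h3⟩⟩
      · obtain ⟨R₁, a1, rfl, a3, t, a4, a5, a6⟩ := (ih m).2 h1
        obtain ⟨R₂, b1, b2, b3⟩ := a1.snoc A h2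
        exact ⟨R₂, b1, b2, fun t ht => (b3 t (by omega)).trans (a3 t ht), t, a4, by omega,
          by rwa [b3 t a5]⟩
      · obtain ⟨R₁, a1, rfl, a3⟩ := (ih m).1 h1
        obtain ⟨R₂, b1, b2, b3⟩ := a1.snoc A h2
        exact ⟨R₂, b1, b2, fun t ht => (b3 t (by omega)).trans (a3 t ht), i + n + 1, by omega,
          le_rfl, by rwa [b2]⟩

theorem loop {y : ℕ → α} {n : ℕ} {e : (σ → σ → Prop) × (σ → σ → Prop)} {p : σ} (he : e.2 p p)
    (h : ∀ k, ∃ j, k ≤ j ∧ Mrg (bstep A) (b0 σ) e (fun t => y (n + t)) j) {R : ℕ → σ}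
    (h0 : R 0 ∈ A.start) (hR : Upto A y R n) (hp : R n = p) : y ∈ buchi A := by
  let T := {a : ℕ × (ℕ → σ) // Upto A y a.2 (n + a.1) ∧ a.2 (n + a.1) = p ∧
    ∃ m, bh A y (n + a.1) m = bh A y n (a.1 + m)}
  have ex : ∀ a : T, ∃ b : T, a.1.1 < b.1.1 ∧ (∀ t ≤ n + a.1.1, b.1.2 t = a.1.2 t) ∧
      ∃ t, n + a.1.1 < t ∧ t ≤ n + b.1.1 ∧ b.1.2 t ∈ A.accept := by
    rintro ⟨⟨k, R₁⟩, a1, a2, m, a3⟩
    dsimp only at a1 a2 a3
    obtain ⟨j, hj, b1, m', b2⟩ := h (k + m)
    obtain ⟨i, rfl⟩ := Nat.exists_eq_add_of_le hj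
    simp only [seg_shift, add_zero] at b1 b2
    have c1 : bh A y (n + k) (m + i) = e := by
      rw [← b1, seg_add y n (k + m), run_append, bh, seg_add, run_append]
      rw [bh, bh] at a3
      rw [a3, add_assoc]
    obtain ⟨R₂, d1, d2, d3, t, d4, d5, d6⟩ := (bh_complete A a1 (m + i) p).2 (by rwa [c1, a2])
    have e1 : n + k + (m + i) = n + (k + m + i) := by omega
    rw [e1] at d1 d2 d5
    refine ⟨⟨(k + m + i, R₂), d1, d2, m', ?_⟩, by dsimp only; omega, d3, t, d4, d5, d6⟩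
    dsimp only
    rw [bh, bh, seg_add y n (k + m + i), run_append, b1, b2]
  choose F hF using ex
  let f : ℕ → T := fun j => F^[j] ⟨(0, R), hR, hp, 0, rfl⟩
  have fs : ∀ j, f (j + 1) = F (f j) := fun j => Function.iterate_succ_apply' _ _ _
  have lt : ∀ j, (f j).1.1 < (f (j + 1)).1.1 := fun j => by rw [fs]; exact (hF _).1
  have sm : StrictMono fun j => (f j).1.1 := strictMono_nat_of_lt_succ lt
  have ge : ∀ j, j ≤ (f j).1.1 := fun j => sm.le_apply
  have agree : ∀ j d t, t ≤ n + (f j).1.1 → (f (j + d)).1.2 t = (f j).1.2 t := by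
    intro j d t ht
    induction d with
    | zero => rfl
    | succ d ih =>
      have : (f j).1.1 ≤ (f (j + d)).1.1 := sm.monotone (Nat.le_add_right j d)
      rw [← add_assoc, fs, (hF _).2.1 t (by omega), ih]
  have val : ∀ j t, t ≤ n + (f j).1.1 → (f t).1.2 t = (f j).1.2 t := fun j t ht => by
    rw [← agree j t t ht, add_comm j t, agree t j t (by have := ge t; omega)]
  refine ⟨fun t => (f t).1.2 t, h0, fun t => ?_, frequently_atTop.2 fun j => ?_⟩
  · dsimp only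
    have := ge (t + 1)
    rw [val (t + 1) t (by omega)]
    exact (f (t + 1)).2.1 t (by omega)
  · obtain ⟨t, h1, h2, h3⟩ := (hF (f j)).2.2
    rw [← fs] at h2 h3
    have := ge j
    exact ⟨t, by omega, by dsimp only; rwa [val _ t h2]⟩

theorem buchi_iff [Finite σ] (x : ℕ → α) : x ∈ buchi A ↔ ∃ n e, (∃ p₀ ∈ A.start, ∃ p,
    (bh A x 0 n).1 p₀ p ∧ e.2 p p) ∧
    ∀ k, ∃ j, k ≤ j ∧ Mrg (bstep A) (b0 σ) e (fun t => x (n + t)) j := by
  constructor
  · rintro ⟨r, h0, hr, hacc⟩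
    let 𝒰 := hyperfilter ℕ
    have lim : ∀ {B : Type} [Finite B] (g : ℕ → B), ∃ b, ∀ᶠ m in 𝒰, g m = b := fun g => by
      obtain ⟨b, hb⟩ := (Ultrafilter.map g 𝒰).eq_pure_of_finite
      exact ⟨b, by
        have : {b} ∈ Ultrafilter.map g 𝒰 := by rw [hb]; exact rfl
        exact this⟩
    have big : ∀ k, ∀ᶠ m in 𝒰, k ≤ m := fun k =>
      hyperfilter_le_cofinite (by rw [Nat.cofinite_eq_atTop]; exact eventually_ge_atTop k)
    choose c hc using fun i => lim fun m => bh A x i (m - i)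
    obtain ⟨⟨e, p⟩, hI⟩ := lim fun m => (c m, r m)
    obtain ⟨n, hn⟩ := hI.exists
    obtain ⟨n1, n2⟩ := Prod.mk.inj hn
    obtain ⟨t, t1, t2⟩ := frequently_atTop.1 hacc (n + 1)
    refine ⟨n, e, ⟨r 0, h0, p, ?_, ?_⟩, fun k => ?_⟩
    · have := (bh_sound A hr 0 n).1
      rwa [zero_add, n2] at this
    · obtain ⟨j, j1, j2, j3⟩ := (hI.and ((hc n).and (big t))).exists
      have := (bh_sound A hr n (j - n)).2 ⟨t, t1, by omega, t2⟩
      rwa [j2, n1, n2, show n + (j - n) = j by omega, (Prod.mk.inj j1).2] at this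
    · obtain ⟨j, j1, j2, j3⟩ := (hI.and ((hc n).and (big (n + k)))).exists
      obtain ⟨m, m1, m2, m3⟩ := ((hc j).and ((hc n).and (big j))).exists
      have e1 : n + (j - n) = j := by omega
      rw [n1] at j2 m2
      rw [(Prod.mk.inj j1).1] at m1
      refine ⟨j - n, by omega, by rw [seg_shift]; exact j2, m - j, ?_⟩
      rw [seg_shift, e1]
      rw [show m - n = (j - n) + (m - j) by omega, bh, seg_add, run_append, e1] at m2
      rw [bh] at j2 m1
      rw [j2] at m2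
      rw [m1, m2]
  · rintro ⟨n, e, ⟨p₀, h0, p, h1, h2⟩, h3⟩
    obtain ⟨R, a1, a2, a3⟩ := (bh_complete A (x := x) (R := fun _ => p₀) (i := 0)
      (fun t ht => absurd ht (Nat.not_lt_zero t)) n p).1 h1
    rw [zero_add] at a1 a2
    exact loop A h2 h3 (by rwa [a3 0 le_rfl]) a1 a2

theorem oh_buchi [Finite σ] {k : ℕ}
    (hS : ∀ s t, SH k {v | run (bstep A) s v = t}) : OH k (buchi A) := by
  refine (OH.biUnion (Set.toFinite {b : ((σ → σ → Prop) × (σ → σ → Prop)) ×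
    ((σ → σ → Prop) × (σ → σ → Prop)) | ∃ p₀ ∈ A.start, ∃ p, b.1.1 p₀ p ∧ b.2.2 p p}) fun b _ =>
      OH.pre (hS (b0 σ) b.1) (oh_mrg (bstep A) (b0 σ) hS b.2)).congr fun x => ?_
  rw [buchi_iff]
  simp only [Set.mem_iUnion, Set.mem_setOf_eq]
  constructor
  · rintro ⟨n, e, h1, h2⟩
    exact ⟨(bh A x 0 n, e), h1, n, rfl, h2⟩
  · rintro ⟨⟨s, e⟩, h1, n, h2, h3⟩
    dsimp only at h1 h2 h3
    subst h2
    exact ⟨n, e, h1, h3⟩

end nfa

theorem omega_of {k : ℕ} (h : ∀ L : Language α, L.IsRegular → SH k L) [Finite σ] (A : NFA α σ) :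
    OH k (buchi A) :=
  oh_buchi A fun s t => h (DFA.accepts ⟨bstep A, s, {t}⟩) ⟨_, Fintype.ofFinite _, _, rfl⟩

end Vale.Agent.N329
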