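import Vale.Agent.P329Z.Final
import Vale.Agent.N329.Defs

set_option linter.all false

/-!
The two outer stars of the bound three, over an arbitrary hierarchy of languages whose bottom
level contains the powers of short words.
-/

namespace Vale.Agent.N329

open Vale.Agent.P329Z Vale.Agent.P329Z.Ht
open Vale.Agent.P329.Clock (Srv lines)

/-- a hierarchy of classes of languages, the star leads to the next level -/
structure Cls {α : Type} (P : ℕ → Set (List α) → Prop) : Prop where
  mono : ∀ {k l : ℕ} {A : Set (List α)}, k ≤ l → P k A → P l A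
  empty : ∀ {k : ℕ}, P k ∅
  eps : ∀ {k : ℕ}, P k {[]}
  single : ∀ {k : ℕ} (a : α), P k {[a]}
  compl : ∀ {k : ℕ} {A : Set (List α)}, P k A → P k Aᶜ
  union : ∀ {k : ℕ} {A B : Set (List α)}, P k A → P k B → P k (A ∪ B)
  cat : ∀ {k : ℕ} {A B : Set (List α)}, P k A → P k B → P k (cat A B)
  kst : ∀ {k : ℕ} {A : Set (List α)}, P k A → P (k + 1) (kst A)

namespace Cls

variable {α : Type} {P : ℕ → Set (List α) → Prop} (c : Cls P) {k : ℕ} {A B : Set (List α)}
include c

theorem univ : P k (Set.univ : Set (List α)) := by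
  have := c.compl (c.empty (k := k))
  simpa using this

theorem inter (hA : P k A) (hB : P k B) : P k (A ∩ B) := by
  have := c.compl (c.union (c.compl hA) (c.compl hB))
  rwa [Set.compl_union, compl_compl, compl_compl] at this

theorem diff (hA : P k A) (hB : P k B) : P k (A \ B) := by
  rw [Set.sdiff_eq]; exact c.inter hA (c.compl hB)

theorem biUnion {ι : Type*} (s : Finset ι) {L : ι → Set (List α)} (h : ∀ i ∈ s, P k (L i)) :
    P k (⋃ i ∈ s, L i) := by
  classical
  induction s using Finset.induction_on with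
  | empty => simpa using c.empty
  | insert a s _ ih =>
    have : (⋃ i ∈ insert a s, L i) = L a ∪ ⋃ i ∈ s, L i := by
      ext w; simp
    rw [this]
    exact c.union (h a (Finset.mem_insert_self _ _))
      (ih fun i hi => h i (Finset.mem_insert_of_mem hi))

theorem iUnion {ι : Type*} [Finite ι] {L : ι → Set (List α)} (h : ∀ i, P k (L i)) :
    P k (⋃ i, L i) := by
  classical
  have := Fintype.ofFinite ι
  have := c.biUnion (k := k) Finset.univ (L := L) fun i _ => h i
  simpa using this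

theorem biUnion_finite {ι : Type*} {s : Set ι} (hs : s.Finite) {L : ι → Set (List α)}
    (h : ∀ i ∈ s, P k (L i)) : P k (⋃ i ∈ s, L i) := by
  have := c.biUnion (k := k) hs.toFinset (L := L) fun i hi => h i (hs.mem_toFinset.1 hi)
  simpa using this

theorem iUnion_prop {p : Prop} {L : Set (List α)} (h : p → P k L) :
    P k (⋃ _ : p, L) := by
  by_cases hp : p
  · simpa [hp] using h hp
  · simpa [hp] using c.empty

theorem word (w : List α) : P k ({w} : Set (List α)) := by
  induction w with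
  | nil => exact c.eps
  | cons a w ih =>
    have h := c.cat (c.single (k := k) a) ih
    have e : ({a :: w} : Set (List α)) = P329Z.cat {[a]} {w} := by
      ext v
      constructor
      · rintro rfl
        exact ⟨[a], rfl, w, rfl, rfl⟩
      · rintro ⟨_, rfl, _, rfl, rfl⟩
        rfl
    rw [e]
    exact h

theorem finite (hA : A.Finite) : P k A := by
  have h := c.biUnion_finite (k := k) hA (L := fun w => ({w} : Set (List α)))
    (fun w _ => c.word w)
  simpa using h

theorem congr (hA : P k A) (h : ∀ w, w ∈ B ↔ w ∈ A) : P k B := by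
  rw [show B = A from Set.ext h]; exact hA

end Cls

variable {α S X : Type} {P : ℕ → Set (List α) → Prop}

/-- inside `Z` every finite automaton is evaluated on the bottom level -/
def Good (P : ℕ → Set (List α) → Prop) (Z : Set (List α)) : Prop :=
  ∀ (S : Type) [Finite S] (step : S → α → S) (s t : S), P 0 {u | u ∈ Z ∧ run step s u = t}

/-- the bottom level contains the powers of the powers of the words of length at most `L` -/
def Pows (P : ℕ → Set (List α) → Prop) (L : ℕ) : Prop :=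
  ∀ (z : List α) (e : ℕ), z.length ≤ L → 0 < e → P 0 (kst {pw z e})

theorem good_congr {A B : Set (List α)} (h : Good P A) (e : ∀ w, w ∈ B ↔ w ∈ A) : Good P B := by
  rw [show B = A from Set.ext e]; exact h

section good

variable (c : Cls P)
include c

theorem good_finite {A : Set (List α)} (h : A.Finite) : Good P A :=
  fun _ _ _ _ _ => c.finite (h.subset fun _ hu => hu.1)

theorem good_union {A B : Set (List α)} (hA : Good P A) (hB : Good P B) : Good P (A ∪ B) :=
  fun S _ step s t => c.congr (c.union (hA S step s t) (hB S step s t)) fun w => by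
    simp only [Set.mem_union, Set.mem_setOf_eq]; tauto

theorem good_biUnion {ι : Type} {I : Set ι} (hI : I.Finite) {A : ι → Set (List α)}
    (h : ∀ i ∈ I, Good P (A i)) : Good P (⋃ i ∈ I, A i) :=
  fun S _ step s t => c.congr (c.biUnion_finite hI fun i hi => h i hi S step s t) fun w => by
    simp only [Set.mem_iUnion, Set.mem_setOf_eq]; tauto

theorem good_cat {A B : Set (List α)} (hA : Good P A) (hB : Good P B) : Good P (cat A B) :=
  fun S _ step s t => c.congr (c.iUnion fun m : S => c.cat (hA S step s m) (hB S step m t))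
    fun w => by
    simp only [Set.mem_iUnion, Set.mem_setOf_eq, cat]
    constructor
    · rintro ⟨⟨u, hu, v, hv, rfl⟩, h⟩
      exact ⟨_, u, ⟨hu, rfl⟩, v, ⟨hv, by rwa [run_append] at h⟩, rfl⟩
    · rintro ⟨m, u, ⟨hu, rfl⟩, v, ⟨hv, h⟩, rfl⟩
      exact ⟨⟨u, hu, v, hv, rfl⟩, by rwa [run_append]⟩

theorem good_pw {L : ℕ} (hp : Pows P L) (z : List α) (hz : z.length ≤ L) :
    Good P {u | ∃ j, u = pw z j} := by
  intro S _ step s t
  obtain ⟨a, e, he, h⟩ : ∃ a e, 0 < e ∧ run step s (pw z (a + e)) = run step s (pw z a) := by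
    obtain ⟨i, j, hij, h⟩ := Finite.exists_ne_map_eq_of_infinite fun j => run step s (pw z j)
    rcases lt_or_gt_of_ne hij with h1 | h1
    · exact ⟨i, j - i, by omega, by rw [show i + (j - i) = j by omega]; exact h.symm⟩
    · exact ⟨j, i - j, by omega, by rw [show j + (i - j) = i by omega]; exact h⟩
  have per : ∀ k r, run step s (pw z (a + r + e * k)) = run step s (pw z (a + r)) := by
    intro k r
    induction k with
    | zero => rfl
    | succ k ih =>
      rw [show a + r + e * (k + 1) = (a + e) + (r + e * k) by ring, pw_add, run_append, h,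
        ← run_append, ← pw_add, ← add_assoc, ih]
  have f1 : ((fun j => pw z j) '' {j | j < a ∧ run step s (pw z j) = t}).Finite :=
    ((Set.finite_lt_nat a).subset fun _ h => h.1).image _
  have f2 : {r | r < e ∧ run step s (pw z (a + r)) = t}.Finite :=
    (Set.finite_lt_nat e).subset fun _ h => h.1
  refine c.congr (c.union (c.finite f1) (c.biUnion_finite f2 fun r _ =>
    c.cat (c.word (pw z (a + r))) (hp z e hz he))) fun w => ?_
  simp only [Set.mem_union, Set.mem_iUnion, Set.mem_setOf_eq, Set.mem_image, cat, mem_kst,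
    Set.mem_singleton_iff]
  constructor
  · rintro ⟨⟨j, rfl⟩, hj⟩
    rcases lt_or_ge j a with h1 | h1
    · exact Or.inl ⟨j, ⟨h1, hj⟩, rfl⟩
    · have h2 : j = a + (j - a) % e + e * ((j - a) / e) := by
        have := Nat.mod_add_div (j - a) e; omega
      refine Or.inr ⟨(j - a) % e, ⟨Nat.mod_lt _ he, ?_⟩, _, rfl, _, ⟨(j - a) / e, rfl⟩, ?_⟩
      · rw [← per ((j - a) / e), ← h2, hj]
      · rw [pw_mul, ← pw_add, ← h2]
  · rintro (⟨j, hj, rfl⟩ | ⟨r, hr, _, rfl, _, ⟨k, rfl⟩, rfl⟩)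
    · exact ⟨⟨j, rfl⟩, hj.2⟩
    · rw [pw_mul, ← pw_add]
      exact ⟨⟨_, rfl⟩, by rw [per, hr.2]⟩

theorem good_Z0 [Finite α] (B : ℕ) {L : ℕ} (hp : Pows P L) : Good P (Z0 B L : Set (List α)) := by
  have hs := good_finite c (List.finite_length_le α B)
  refine good_congr (good_cat c (good_cat c hs
    (good_biUnion c (List.finite_length_le α L) fun z hz => good_pw c hp z hz)) hs) fun w => ?_
  simp only [Z0, cat, Set.mem_setOf_eq, Set.mem_iUnion]
  constructor
  · rintro ⟨a, z, b, j, ha, hz, hb, rfl⟩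
    exact ⟨_, ⟨a, ha, _, ⟨z, hz, j, rfl⟩, rfl⟩, b, hb, rfl⟩
  · rintro ⟨_, ⟨a, ha, _, ⟨z, hz, j, rfl⟩, rfl⟩, b, hb, rfl⟩
    exact ⟨a, z, b, j, ha, hz, hb, rfl⟩

theorem good_cong {B : Type} [Finite B] (beh : List α → B)
    (hb : ∀ u v a, beh u = beh v → beh (u ++ [a]) = beh (v ++ [a])) {Z : Set (List α)}
    (hZ : Good P Z) (R : List α → Prop) (hR : ∀ u v, beh u = beh v → R u → R v) :
    P 0 {u | u ∈ Z ∧ R u} := by
  classical
  let st : B → α → B := fun b a => if h : ∃ u, beh u = b then beh (h.choose ++ [a]) else b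
  have hst : ∀ u p, run st (beh p) u = beh (p ++ u) := by
    intro u
    induction u with
    | nil => simp
    | cons a u ih =>
      intro p
      have h : ∃ u, beh u = beh p := ⟨p, rfl⟩
      have : st (beh p) a = beh (p ++ [a]) := by
        simp only [st, dif_pos h]
        exact hb _ _ a h.choose_spec
      rw [run_cons, this, ih]
      simp
  refine c.congr (c.biUnion_finite (Set.toFinite {b | ∃ u, beh u = b ∧ R u})
    fun b _ => hZ B st (beh []) b) fun w => ?_
  simp only [Set.mem_iUnion, Set.mem_setOf_eq, hst, List.nil_append]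
  exact ⟨fun h => ⟨_, ⟨w, rfl, h.2⟩, h.1, rfl⟩,
    fun ⟨_, ⟨u, h1, h2⟩, h3, h4⟩ => ⟨h3, hR u w (h1.trans h4.symm) h2⟩⟩

variable {step : S → α → S} {ev : S → α → Prop} {Φ : S → X}

theorem key0 (hΦ : Summ step ev Φ) {Z : Set (List α)} (hZ : Good P Z) (R : List α → Prop)
    (hR : ∀ u v, (∀ s, (NoEv step ev s u ↔ NoEv step ev s v) ∧
      Φ (run step s u) = Φ (run step s v)) → R u → R v) : P 0 {u | u ∈ Z ∧ R u} := by
  haveI : Finite (Set.range Φ) := hΦ.fin
  let beh : List α → Set.range Φ → Prop × Set.range Φ := fun u x =>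
    (NoEv step ev x.2.choose u, ⟨Φ (run step x.2.choose u), _, rfl⟩)
  have h1 : ∀ u v, beh u = beh v ↔ ∀ s, (NoEv step ev s u ↔ NoEv step ev s v) ∧
      Φ (run step s u) = Φ (run step s v) := by
    intro u v
    constructor
    · intro h s
      have h2 := congrFun h ⟨Φ s, s, rfl⟩
      have h3 : Φ (⟨s, rfl⟩ : Φ s ∈ Set.range Φ).choose = Φ s :=
        (⟨s, rfl⟩ : Φ s ∈ Set.range Φ).choose_spec
      have h4 := congrArg Prod.fst h2
      have h5 := congrArg (fun p => p.2.1) h2
      simp only [beh] at h4 h5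
      refine ⟨⟨fun h6 => s_noEv hΦ v h3 (h4 ▸ s_noEv hΦ u h3.symm h6),
        fun h6 => s_noEv hΦ u h3 (h4 ▸ s_noEv hΦ v h3.symm h6)⟩, ?_⟩
      rw [← s_run hΦ u h3, ← s_run hΦ v h3, h5]
    · intro h
      funext x
      exact Prod.ext (propext (h _).1) (Subtype.ext (h _).2)
  refine good_cong c beh (fun u v a h => (h1 _ _).2 fun s => ?_) hZ R
    fun u v h => hR u v ((h1 u v).1 h)
  obtain ⟨h2, h3⟩ := (h1 u v).1 h s
  rw [noEv_append, noEv_append, run_append, run_append]
  exact ⟨⟨fun h4 => ⟨h2.1 h4.1, s_noEv hΦ _ h3 h4.2⟩,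
    fun h4 => ⟨h2.2 h4.1, s_noEv hΦ _ h3.symm h4.2⟩⟩, s_run hΦ _ h3⟩

theorem good_Zn [Finite α] (B : ℕ) {L : ℕ} (hp : Pows P L) (n : ℕ) :
    Good P (Zn B L n : Set (List α)) := by
  induction n with
  | zero =>
    refine good_finite c ((Set.finite_singleton []).subset ?_)
    rintro _ ⟨l, hl, -, rfl⟩
    rw [List.length_eq_zero_iff.1 (Nat.le_zero.1 hl)]
    rfl
  | succ n ih =>
    refine good_congr (good_union c ih (good_cat c (good_Z0 c B hp) ih)) fun w => ?_
    constructor
    · rintro ⟨l, hl, h, rfl⟩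
      cases l with
      | nil => exact Or.inl ⟨[], Nat.zero_le _, h, rfl⟩
      | cons v l => exact Or.inr ⟨v, h v (by simp), _,
          ⟨l, by simpa using hl, fun u hu => h u (by simp [hu]), rfl⟩, rfl⟩
    · rintro (⟨l, hl, h, rfl⟩ | ⟨v, hv, _, ⟨l, hl, h, rfl⟩, rfl⟩)
      · exact ⟨l, hl.trans n.le_succ, h, rfl⟩
      · exact ⟨v :: l, by simpa using hl, by simpa using ⟨hv, h⟩, rfl⟩

/-- the inner star -/
theorem inner_star [Finite α]
    (hΦ : Summ step ev Φ) (F : Set S) {Z : Set (List α)} (hZ : Good P Z) (s₀ : S)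
    (fac : ∀ w, NoEv step ev s₀ w → w ∈ Z ∨ ∃ p v, w = p ++ v ∧ p ∈ Z ∧ run step s₀ p ∈ F ∧
      IChain step ev F Z (run step s₀ w) v) (x : X) :
    P 1 {w | NoEv step ev s₀ w ∧ Φ (run step s₀ w) = x} := by
  let P' : Set (List α) := {p | p ∈ Z ∧ Φ (run step s₀ p) ∈ Φ '' F}
  let K : Set (List α) := {k | k ∈ Z ∧ ∀ s ∈ F, NoEv step ev s k → Φ (run step s k) ∈ Φ '' F}
  let Sf : X → Set (List α) := fun x =>
    {v | v ∈ Z ∧ ∀ s ∈ F, NoEv step ev s v → Φ (run step s v) = x}
  let T : X → Set (List α) := fun x =>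
    {w | w ∈ Z ∧ Φ (run step s₀ w) = x} ∪ cat P' (cat (kst K) (Sf x))
  have hT : ∀ x, P 1 (T x) := fun x =>
    c.union (c.mono zero_le_one (key0 c hΦ hZ _ fun u v h hu => by rwa [← (h s₀).2]))
      (c.cat (c.mono zero_le_one (key0 c hΦ hZ _ fun u v h hu => by rwa [← (h s₀).2]))
        (c.cat (c.kst (key0 c hΦ hZ _ fun u v h hu s hs hv => by
          rw [← (h s).2]; exact hu s hs ((h s).1.2 hv)))
        (c.mono zero_le_one (key0 c hΦ hZ _ fun u v h hu s hs hv => by
          rw [← (h s).2]; exact hu s hs ((h s).1.2 hv)))))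
  have ha : ∀ w, NoEv step ev s₀ w → w ∈ T (Φ (run step s₀ w)) := by
    intro w hw
    rcases fac w hw with h | ⟨p, v, h1, h2, h3, h4⟩
    · exact Or.inl ⟨h, rfl⟩
    · refine Or.inr ⟨p, ⟨h2, _, h3, rfl⟩, v, ?_, h1.symm⟩
      clear h1
      induction h4 with
      | last v hv h => exact ⟨[], kst_nil K, v, ⟨hv, fun s hs h' => by rw [h s hs h']⟩, rfl⟩
      | cons k w hk h _ ih =>
        obtain ⟨u, hu, v, hv, rfl⟩ := ih
        exact ⟨k ++ u, kst_cons ⟨hk, fun s hs h' => ⟨_, h s hs h', rfl⟩⟩ hu, v, hv, by simp⟩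
  have hb : ∀ x, ∀ w ∈ T x, NoEv step ev s₀ w → Φ (run step s₀ w) = x := by
    rintro x w (h | ⟨p, hp, _, ⟨u, hu, v, hv, rfl⟩, rfl⟩) hw
    · exact h.2
    · have h1 : ∀ s, Φ s ∈ Φ '' F → NoEv step ev s u → Φ (run step s u) ∈ Φ '' F := by
        refine kst_ind (p := fun u => ∀ s, Φ s ∈ Φ '' F → NoEv step ev s u →
          Φ (run step s u) ∈ Φ '' F) (fun s h _ => h) (fun k u hk ih s hs h => ?_) hu
        obtain ⟨s', h1, h2⟩ := hs
        rw [noEv_append] at h
        rw [run_append]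
        exact ih _ (s_run hΦ k h2 ▸ hk.2 s' h1 (s_noEv hΦ k h2.symm h.1)) h.2
      rw [noEv_append, noEv_append] at hw
      obtain ⟨s', h2, h3⟩ := h1 _ hp.2 hw.2.1
      rw [run_append, run_append, ← s_run hΦ v h3]
      exact hv.2 s' h2 (s_noEv hΦ v h3.symm hw.2.2)
  refine c.congr (c.diff (hT x) (c.biUnion_finite hΦ.fin fun y _ => c.iUnion fun a : α =>
    c.iUnion_prop (p := ∃ s, Φ s = y ∧ ev s a) fun _ =>
      c.cat (hT y) (c.cat (c.single a) c.univ))) fun w => ?_
  simp only [Set.mem_diff, Set.mem_iUnion, Set.mem_setOf_eq]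
  constructor
  · rintro ⟨hw, rfl⟩
    refine ⟨ha w hw, ?_⟩
    rintro ⟨y, -, a, ⟨s, rfl, hs⟩, u, hu, _, ⟨_, rfl, v, -, rfl⟩, rfl⟩
    rw [noEv_append] at hw
    exact hw.2.1 (hΦ.evt _ _ a (hb _ u hu hw.1).symm hs)
  · rintro ⟨h1, h2⟩
    have hw : NoEv step ev s₀ w := by
      by_contra hw
      obtain ⟨u, a, v, rfl, h3, h4⟩ := first_ev w s₀ hw
      exact h2 ⟨_, ⟨_, rfl⟩, a, ⟨_, rfl, h4⟩, u, ha u h3, _, ⟨_, rfl, v, trivial, rfl⟩, rfl⟩
    exact ⟨hw, hb x w h1 hw⟩

/-- the outer star -/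
theorem outer_star [Finite α]
    (hΦ : Summ step ev Φ) (F I : Set S) (hI : I.Finite) {Z : Set (List α)} (hZ : Good P Z)
    (h2 : ∀ s ∈ I, ∀ x : X, P 1 {w | NoEv step ev s w ∧ Φ (run step s w) = x})
    (s₀ : S) (hs₀ : s₀ ∈ I)
    (fac : ∀ w, NoEv step ev s₀ w ∨ ∃ p v, w = p ++ v ∧ NoEv step ev s₀ p ∧ run step s₀ p ∈ F ∧
      OChain step ev F I Z v) (x : X) :
    P 2 {w | Φ (run step s₀ w) = x} := by
  let Sy : S → Set (List α) := fun t => {b | b ∈ Z ∧ ∀ s ∈ F, Φ (run step s b) = Φ t}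
  let Tt : S → X → Set (List α) := fun t y => {w | NoEv step ev t w ∧ Φ (run step t w) = y}
  let Sf : X → Set (List α) := fun y => ⋃ t ∈ I, cat (Sy t) (Tt t y)
  let K : Set (List α) := ⋃ y ∈ Φ '' F, Sf y
  have hF : (Φ '' F).Finite := hΦ.fin.subset (Set.image_subset_range _ _)
  have h23 : 1 ≤ 2 := by norm_num
  have hSf : ∀ y, P 1 (Sf y) := fun y => c.biUnion_finite hI fun t ht =>
    c.cat (c.mono zero_le_one
      (key0 c hΦ hZ _ fun u v h hu s hs => by rw [← (h s).2]; exact hu s hs)) (h2 t ht y)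
  have sound : ∀ y, ∀ k ∈ Sf y, ∀ s, Φ s ∈ Φ '' F → Φ (run step s k) = y := by
    intro y k hk s ⟨s', h3, h4⟩
    simp only [Sf, Set.mem_iUnion] at hk
    obtain ⟨t, -, b, hb, m, hm, rfl⟩ := hk
    rw [run_append, s_run hΦ m ((s_run hΦ b h4).symm.trans (hb.2 s' h3)), hm.2]
  have piece : ∀ b m t, b ∈ Z → t ∈ I → (∀ s ∈ F, run step s b = t) → NoEv step ev t m →
      b ++ m ∈ Sf (Φ (run step t m)) := fun b m t hb ht h hm => by
    simp only [Sf, Set.mem_iUnion]
    exact ⟨t, ht, b, ⟨hb, fun s hs => by rw [h s hs]⟩, m, ⟨hm, rfl⟩, rfl⟩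
  refine c.congr (c.union (c.mono h23 (h2 s₀ hs₀ x))
    (c.cat (c.mono h23 (c.biUnion_finite hF fun y _ => h2 s₀ hs₀ y))
      (c.cat (c.kst (c.biUnion_finite hF fun y _ => hSf y)) (c.mono h23 (hSf x))))) fun w => ?_
  constructor
  · rintro rfl
    rcases fac w with h | ⟨p, v, rfl, h3, h4, h5⟩
    · exact Or.inl ⟨h, rfl⟩
    · refine Or.inr ⟨p, Set.mem_biUnion (x := Φ (run step s₀ p)) ⟨_, h4, rfl⟩ ⟨h3, rfl⟩, v, ?_, rfl⟩
      rw [run_append]
      have h6 : Φ (run step s₀ p) ∈ Φ '' F := ⟨_, h4, rfl⟩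
      generalize run step s₀ p = s at h6
      induction h5 generalizing s with
      | last b m t hb ht h hm =>
        have := piece b m t hb ht h hm
        exact ⟨[], kst_nil _, _, by rwa [sound _ _ this s h6], rfl⟩
      | cons b m w t hb ht h hm hF' _ ih =>
        have := piece b m t hb ht h hm
        obtain ⟨u, hu, v, hv, rfl⟩ := ih (run step s (b ++ m))
          (by rw [sound _ _ this s h6]; exact ⟨_, hF', rfl⟩)
        exact ⟨b ++ m ++ u, kst_cons (Set.mem_biUnion (x := Φ (run step t m)) ⟨_, hF', rfl⟩ this)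
          hu, v, by rwa [run_append], by simp⟩
  · rintro (h | ⟨p, hp, _, ⟨u, hu, v, hv, rfl⟩, rfl⟩)
    · exact h.2
    · simp only [Set.mem_iUnion] at hp
      obtain ⟨y, hy, -, rfl⟩ := hp
      have h1 : ∀ s, Φ s ∈ Φ '' F → Φ (run step s u) ∈ Φ '' F := by
        refine kst_ind (p := fun u => ∀ s, Φ s ∈ Φ '' F → Φ (run step s u) ∈ Φ '' F)
          (fun s h => h) (fun k u hk ih s hs => ?_) hu
        simp only [Set.mem_iUnion] at hk
        obtain ⟨y, hy, hk⟩ := hk
        rw [run_append]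
        exact ih _ (by rwa [sound y k hk s hs])
      show Φ (run step s₀ (p ++ (u ++ v))) = x
      rw [run_append, run_append]
      exact sound x v hv _ (h1 _ hy)

/-- a language which is determined by two finite observations -/
theorem determined {X₁ X₂ : Type} {k : ℕ} (Q L : List α → Prop) (f₁ : List α → X₁)
    (f₂ : List α → X₂) (h₁ : (Set.range f₁).Finite) (h₂ : (Set.range f₂).Finite)
    (s₁ : ∀ x, P k {w | Q w ∧ f₁ w = x}) (s₂ : ∀ x, P k {w | Q w ∧ f₂ w = x})
    (hL : ∀ w w', Q w → Q w' → f₁ w = f₁ w' → f₂ w = f₂ w' → L w → L w') :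
    P k {w | Q w ∧ L w} := by
  have hf : ((fun w => (f₁ w, f₂ w)) '' {w | Q w ∧ L w}).Finite :=
    (h₁.prod h₂).subset (by rintro _ ⟨w, -, rfl⟩; exact ⟨⟨w, rfl⟩, ⟨w, rfl⟩⟩)
  refine c.congr (c.biUnion_finite hf fun x _ => c.inter (s₁ x.1) (s₂ x.2)) fun w => ?_
  simp only [Set.mem_iUnion, Set.mem_setOf_eq, Set.mem_inter_iff]
  constructor
  · exact fun h => ⟨_, ⟨w, h, rfl⟩, ⟨h.1, rfl⟩, h.1, rfl⟩
  · rintro ⟨_, ⟨v, hv, rfl⟩, h3, h4⟩
    exact ⟨h3.1, hL v w hv.1 h3.1 h3.2.symm h4.2.symm hv.2⟩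

end good

open Vale.Agent.P329Z.Mr in
theorem exists_marks' (α : Type) [Finite α] (D L : ℕ) (hL : L = D.factorial) :
    ∃ (N B : ℕ) (U : Set (List α)), 0 < N ∧ (∀ u : List α, Sparse D (Mk N U u)) ∧
      ∀ u : List α, (∀ i, ¬ Mk N U u i) → u ∈ (Z0 B L : Set (List α)) := by
  obtain ⟨col, hcol⟩ := exists_injective_nat (List α)
  have hL0 : 0 < L := hL ▸ D.factorial_pos
  obtain ⟨C, hC⟩ := ((List.finite_length_le α (L + 1)).image col).bddAbove
  refine ⟨2 * D + (L + 1), (C + 1) * D + L, {v | Aper D (win (L + 1) v D) ∧ ∀ j ≤ 2 * D,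
    j ≠ D → Aper D (win (L + 1) v j) → col (win (L + 1) v D) < col (win (L + 1) v j)},
    by omega, fun u i j hi hj hij => ?_, fun u hu => ?_⟩
  · by_contra hc
    obtain ⟨i1, -, i2, i3⟩ := hi
    obtain ⟨j1, -, j2, j3⟩ := hj
    have i4 := i3 (D + (j - i)) (by omega) (by omega)
    have j4 := j3 (D - (j - i)) (by omega) (by omega)
    rw [win_win i1 (by omega)] at i2
    rw [win_win j1 (by omega)] at j2
    rw [win_win i1 (by omega), win_win i1 (by omega), show i - (2 * D + (L + 1)) + (D + (j - i)) =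
      j - (2 * D + (L + 1)) + D by omega] at i4
    rw [win_win j1 (by omega), win_win j1 (by omega), show j - (2 * D + (L + 1)) + (D - (j - i)) =
      i - (2 * D + (L + 1)) + D by omega] at j4
    exact absurd (i4 j2) (not_lt.2 (j4 i2).le)
  · have H : ∀ i, D ≤ i → i + (L + 1) + D ≤ u.length → Aper D (win (L + 1) u i) →
        ∃ j, j ≤ i + D ∧ i ≤ j + D ∧ Aper D (win (L + 1) u j) ∧
          col (win (L + 1) u j) < col (win (L + 1) u i) := by
      intro i h1 h2 h3
      by_contra hc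
      have h4 : 2 * D + (L + 1) ≤ i + (L + 1) + D := by omega
      have h5 : i + (L + 1) + D - (2 * D + (L + 1)) + D = i := by omega
      refine hu (i + (L + 1) + D) ⟨h4, h2, by rwa [win_win h4 (by omega), h5], fun j j1 j2 => ?_⟩
      rw [win_win h4 (by omega), win_win h4 (by omega), h5]
      obtain ⟨k, hk⟩ : ∃ k, k = i + (L + 1) + D - (2 * D + (L + 1)) + j := ⟨_, rfl⟩
      rw [← hk]
      intro h6
      refine lt_of_le_of_ne (not_lt.1 fun h7 => hc ⟨k, by omega, by omega, h6, h7⟩) fun h7 => ?_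
      have h8 := hcol h7
      rcases lt_or_gt_of_ne j2 with h9 | h9
      · exact h6 (i - k) (by omega) (by omega)
          (per_of_eq (by rw [show k + (i - k) = i by omega, h8]))
      · exact h3 (k - i) (by omega) (by omega)
          (per_of_eq (by rw [show i + (k - i) = k by omega, h8]))
    have K : ∀ c i, col (win (L + 1) u i) < c → c * D ≤ i → i + (L + 1) + c * D ≤ u.length →
        ¬ Aper D (win (L + 1) u i) := by
      intro c
      induction c with
      | zero => omega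
      | succ c ih =>
        intro i h1 h2 h3 h4
        rw [Nat.succ_mul] at h2 h3
        obtain ⟨j, j1, j2, j3, j4⟩ := H i (by omega) (by omega) h4
        exact ih j (by omega) (by omega) (by omega) j3
    obtain ⟨k, hk⟩ : ∃ k, k = (C + 1) * D := ⟨_, rfl⟩
    rw [← hk]
    obtain ⟨j, r, h1, h2⟩ := per_split hL0 _ (win (u.length - 2 * k) u k) le_rfl fun t ht => by
      have ht' := ht.trans_le win_len_le
      have := K (C + 1) (k + t) (Nat.lt_succ_of_le (hC ⟨_, win_len_le, rfl⟩)) (by omega) (by omega)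
      simp only [Aper, not_forall, not_not] at this
      obtain ⟨d, d1, d2, d3⟩ := this
      obtain ⟨e, he⟩ := Nat.dvd_factorial d1 d2
      have h3 := d3.mul e 0 (by rw [win_len (by omega)]; omega)
      rw [← he, ← hL, win_get (by omega), win_get (by omega)] at h3
      rw [win_get (by omega), win_get ht', ← add_assoc]
      simpa using h3
    refine ⟨u.take k, (win (u.length - 2 * k) u k).take L, r ++ (u.drop k).drop (u.length - 2 * k), j,
      (List.length_take_le _ _).trans (by omega), List.length_take_le L _, ?_, ?_⟩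
    · simp only [List.length_append, List.length_drop]; omega
    · rw [List.append_assoc, ← List.append_assoc _ r, ← h2, win, List.take_append_drop,
        List.take_append_drop]

section transfer

variable {V : Type} [AddCommGroup V] [Inhabited V] {K : ℕ}
  {D : Dt α V (SI (V → V) (V →₀ ZMod 2) K × Bool)} (hK : 0 < K)
  (f : (Fin K → (V → V)) → (V →₀ ZMod 2))

include hK in
theorem height_one [Finite α] [Finite V] (c : Cls P) (hD : D.Ok)
    (hε : ∀ s b, D.ε (s, b) = if b then 1 else -1)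
    (hf : ∀ a y, ∃ k, Srv (hI K) k a y f) {B L : ℕ} (hp : Pows P L)
    (hZ : ∀ g, Pre D.N D.Um D.θ g → g ∈ (Z0 B L : Set (List α))) (x : V)
    (o : (List α × (Fin (D.Θ + 1) → V → V) × ZMod D.q × List α) × V) :
    P 1 {w | NoEv D.stepE (D.ev V) ([], x) w ∧
      (D.phi (run D.stepE ([], x) w).1, (run D.stepE ([], x) w).2) = o} := by
  haveI : Finite {l : List (V → V) // l.length < K} := finite_short
  haveI : Finite (V →₀ ZMod 2) := Finite.of_equiv _ Finsupp.equivFunOnFinite.symm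
  have hS := Dt.summ hD (σ := SI (V → V) (V →₀ ZMod 2) K) (upd hK (hI K) f)
  have key : ∀ (y : V →₀ ZMod 2) o', P 1 {w | NoEv D.stepE (D.ev V) ([], x) w ∧
      (D.phi (run (D.stepI hK (hI K) f) ([], st0 hK y) w).1,
        (run (D.stepI hK (hI K) f) ([], st0 hK y) w).2) = o'} := by
    intro y o'
    have h1 := inner_star c hS D.FI (good_Zn c B hp (3 * K + 1)) ([], st0 hK y) (by
      intro w _
      obtain ⟨Gs, g, rfl, h2, h3⟩ := decomp (N := D.N) (U := D.Um) hD.θpos w
      rcases Dt.inner_fac hK (hI K) f hD hε hf hZ h3 _ Gs le_rfl h2 y with h4 | ⟨p, v, h4, h5, h6, h7⟩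
      · exact Or.inl (Zn.mono (by omega) h4)
      · exact Or.inr ⟨p, v, h4, Zn.mono (by omega) h5, h6, h7⟩) o'
    refine c.congr h1 fun w => and_congr_left fun _ => ?_
    exact noEv_fst (s := ([], x)) (s' := ([], st0 hK y)) rfl w
  have fin : ∀ y : V →₀ ZMod 2, (Set.range fun w =>
      (D.phi (run (D.stepI hK (hI K) f) ([], st0 hK y) w).1,
        (run (D.stepI hK (hI K) f) ([], st0 hK y) w).2)).Finite := by
    intro y
    refine hS.fin.subset ?_
    rintro _ ⟨w, rfl⟩
    exact ⟨_, rfl⟩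
  refine determined c _ _ _ _ (fin (Finsupp.single x 1)) (fin 0) (key _) (key _) ?_
  intro w w' _ _ h1 h2 h3
  have r0 : Rel (K := K) (([], x) : List α × V) ([], st0 hK (Finsupp.single x 1)) ([], st0 hK 0) :=
    ⟨rfl, rfl, rfl, x, sub_zero _, rfl⟩
  obtain ⟨a1, _, _, x₁, a4, a5⟩ := r0.run (D := D) hK f w
  obtain ⟨b1, _, _, x₂, b4, b5⟩ := r0.run (D := D) hK f w'
  obtain ⟨c1, c2⟩ := Prod.mk.inj h1
  obtain ⟨_, c4⟩ := Prod.mk.inj h2
  rw [c2, c4, b4] at a4
  rw [← h3, a1, b1, a5, b5, c1, c2, Finsupp.single_left_injective one_ne_zero a4]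

end transfer

theorem rel_linear (V : Type) [Finite V] [AddCommGroup V] : ∃ L : ℕ, ∀ (α : Type) [Finite α]
    (P : ℕ → Set (List α) → Prop), Cls P → Pows P L → ∀ (M : α → V →+ V) (x : V) (F : Set V),
      P 2 {w | act M w x ∈ F} := by
  classical
  haveI : Inhabited V := ⟨0⟩
  haveI : Fintype V := Fintype.ofFinite V
  haveI : Finite (V →₀ ZMod 2) := Finite.of_equiv _ Finsupp.equivFunOnFinite.symm
  haveI : Fintype (V →₀ ZMod 2) := Fintype.ofFinite _
  obtain ⟨KE, hKE, hE⟩ := lines V (V → V)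
  obtain ⟨fE, hfE⟩ := hE (hh KE)
  obtain ⟨K, hK, hIn⟩ := lines (V →₀ ZMod 2) (V → V)
  obtain ⟨f, hf⟩ := hIn (hI K)
  haveI : Finite {l : List (V → V) // l.length < K} := finite_short
  obtain ⟨S, hS⟩ := exists_offsets KE ((Fin KE → (V → V)) × V)
  obtain ⟨q, U, z, X, hsp⟩ := exists_split (SI (V → V) (V →₀ ZMod 2) K × Bool) S
    (fun ρ => if ρ.2 then 1 else -1) (fun ρ => by split_ifs <;> simp)
  obtain ⟨t, p, t0, tmono, tl, tr, tle, ple, sid⟩ := hS U
  obtain ⟨L, hL⟩ : ∃ L, L = (3 * q * (q + 3)).factorial := ⟨_, rfl⟩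
  refine ⟨L, fun α _ P c hp M x F => ?_⟩
  obtain ⟨N, B, Um, hN, hsparse, hZ0⟩ := exists_marks' α (3 * q * (q + 3)) L hL
  let D : Dt α V (SI (V → V) (V →₀ ZMod 2) K × Bool) :=
    ⟨M, KE, fE, N, Um, q, U, S, t, p, fun ρ => if ρ.2 then 1 else -1, z, X⟩
  have hD : D.Ok := ⟨hKE, hN, hfE, hsparse, hsp, fun ρ => by
    show (if ρ.2 then (1 : ℤ) else -1) = 1 ∨ (if ρ.2 then (1 : ℤ) else -1) = -1
    split_ifs <;> simp, t0, tmono, tl, tr, tle, ple, sid⟩
  have hZ : ∀ g, Pre D.N D.Um D.θ g → g ∈ (Z0 (B + D.θ + 1) L : Set (List α)) :=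
    fun g hg => pre_Z0 hZ0 hg
  have hSE := Dt.summ hD (σ := V) (fun H y => H y)
  have hfin : ({s | s.1 = []} : Set (List α × V)).Finite := by
    refine (Set.finite_range (fun y : V => (([], y) : List α × V))).subset ?_
    rintro ⟨g, y⟩ hs
    exact ⟨y, by rw [show g = [] from hs]⟩
  have key : ∀ (y : V) o, P 2 {w | True ∧
      (D.phi (run D.stepE ([], y) w).1, (run D.stepE ([], y) w).2) = o} := by
    intro y o
    have h1 := outer_star c hSE D.FE {s | s.1 = []} hfin (good_Zn c (B + D.θ + 1) hp 1)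
      (by
        rintro ⟨g, y'⟩ hs o'
        have hg : g = [] := hs
        subst hg
        exact height_one hK f c hD (fun _ _ => rfl) hf hp hZ y' o') ([], y) rfl (by
        intro w
        obtain ⟨Gs, g, rfl, h2, h3⟩ := decomp (N := D.N) (U := D.Um) hD.θpos w
        exact Dt.outer_fac hD (fun g hg => Zn.one (hZ g hg)) Gs h2 h3 y) o
    exact c.congr h1 fun w => ⟨fun h => h.2, fun h => ⟨trivial, h⟩⟩
  have fin : ∀ y : V, (Set.range fun w =>
      (D.phi (run D.stepE ([], y) w).1, (run D.stepE ([], y) w).2)).Finite := by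
    intro y
    refine hSE.fin.subset ?_
    rintro _ ⟨w, rfl⟩
    exact ⟨_, rfl⟩
  have h := determined c (fun _ => True) (fun w => act M w x ∈ F) _ _ (fin x) (fin 0) (key x) (key 0)
    (by
      intro w w' _ _ h1 h2 h3
      obtain ⟨c1, c2⟩ := Prod.mk.inj h1
      obtain ⟨_, c4⟩ := Prod.mk.inj h2
      have a := (run_diff D x w).2
      have b := (run_diff D x w').2
      rw [Dt.phi_act c1, c2, c4, b] at a
      have a' : act M w' x = act M w x := a
      rw [a']
      exact h3)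
  exact c.congr h fun w => ⟨fun h => ⟨trivial, h⟩, fun h => h.2⟩

theorem rel_dfa (σ : Type) [Finite σ] : ∃ L : ℕ, ∀ (α : Type) [Finite α]
    (P : ℕ → Set (List α) → Prop), Cls P → Pows P L → ∀ A : DFA α σ, P 2 A.accepts := by
  haveI : Finite (σ →₀ ZMod 2) := Finite.of_equiv _ Finsupp.equivFunOnFinite.symm
  obtain ⟨L, hL⟩ := rel_linear (σ →₀ ZMod 2)
  refine ⟨L, fun α _ P c hp A => ?_⟩
  have h := hL α P c hp
    (fun a => Finsupp.mapDomain.addMonoidHom (fun s => A.step s a)) (Finsupp.single A.start 1)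
    {v | ∃ s ∈ A.accept, v = Finsupp.single s 1}
  have e : ∀ (w : List α) (s : σ), act (V := σ →₀ ZMod 2)
      (fun a => Finsupp.mapDomain.addMonoidHom (fun s => A.step s a)) w (Finsupp.single s 1) =
        Finsupp.single (A.evalFrom s w) 1 := by
    intro w
    induction w with
    | nil => intro s; rfl
    | cons a w ih =>
      intro s
      show act _ w (Finsupp.mapDomain (fun s => A.step s a) (Finsupp.single s 1)) = _
      rw [Finsupp.mapDomain_single, ih]
      rfl
  refine c.congr h fun w => ?_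
  show A.evalFrom A.start w ∈ A.accept ↔ ∃ s ∈ A.accept, _ = Finsupp.single s 1
  rw [e]
  constructor
  · intro h1
    exact ⟨_, h1, rfl⟩
  · rintro ⟨s, h1, h2⟩
    rw [Finsupp.single_left_injective one_ne_zero h2]
    exact h1

end Vale.Agent.N329
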